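import Vale.Agent.P219.CH.Full.Variational.Quot

/-!
P219, full inequality: the Euler equation and the second variation on the sphere.
-/

namespace Vale.Agent.P219.CH.Full

open MeasureTheory Filter Topology Set
open scoped ContDiff RealInnerProductSpace

noncomputable section

namespace Vari

variable {n : ℕ} {G : Coeff n} {Γ : Geo G} {e h₀ : ℝ} {D : Varifold G h₀} {u : E n → ℝ}

theorem integrable_wint (hG : IsMetric G) (hc : Comp Γ e) {f g : E n → ℝ}
    (hf : Continuous f) (hfs : HasCompactSupport f) (hg : Continuous g) (z : E n) {a : ℝ}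
    (ha : 0 < a) : Integrable (fun p => wgt Γ e z a p.1 ^ 2 * f p.1 ^ 2 * g p.1) D.μ := by
  refine D.integrable_of_supp hG ?_ hfs fun p hp => ?_
  · exact ((((contDiff_wgt hc z ha).continuous.comp continuous_fst).pow 2).mul
      ((hf.comp continuous_fst).pow 2)).mul (hg.comp continuous_fst)
  · simp [image_eq_zero_of_notMem_tsupport hp]

theorem barta_w (hn : 4 ≤ n) (hCH : IsCHe G e) (hc : Comp Γ e) {f : E n → ℝ}
    (hf : ContDiff ℝ 1 f) (hfs : HasCompactSupport f) (z : E n) {a : ℝ} (ha : 0 < a)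
    (hea : e * a < 1) :
    0 ≤ gap Γ e D.μ z a f ∧ cc n * gap Γ e D.μ z a f +
      md n * (md n - 1) * (∫ p, wgt Γ e z a p.1 ^ 2 * f p.1 ^ 2 ∂D.μ) ≤
        energy D.μ G e h₀ f := by
  constructor
  · refine integral_nonneg_of_ae ?_
    filter_upwards [D.unit] with p hp
    exact mul_nonneg (Real.rpow_nonneg (wgt_pos hc z ha hea _).le _)
      (tgsq_nonneg hCH.metric _ hp)
  · refine le_trans (le_add_of_nonneg_right ?_) (barta n G e Γ h₀ hn hCH hc D f hf hfs z a ha hea)
    have := three_le_md hn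
    refine mul_nonneg (div_nonneg (by linarith) (by linarith)) (integral_nonneg fun p => ?_)
    have : D.h p.1 ^ 2 ≤ h₀ ^ 2 := sq_le_sq' (abs_le.1 (D.h_le _)).1 (abs_le.1 (D.h_le _)).2
    exact mul_nonneg (sq_nonneg _) (add_nonneg (by linarith) (div_nonneg (sq_nonneg _) (sq_nonneg _)))

/-- Barta's inequality at `u (1 + s ζ)` against the expansion of the energy. -/
theorem euler_aux (hn : 4 ≤ n) (hCH : IsCHe G e) (hc : Comp Γ e) (hu : Adm D.μ u) {z : E n}
    {a : ℝ} (ha : 0 < a) (hea : e * a < 1) {ζ : E n → ℝ} (hζ : ContDiff ℝ 1 ζ) (s : ℝ) :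
    md n * (md n - 1) * ((∫ p, wgt Γ e z a p.1 ^ 2 * u p.1 ^ 2 ∂D.μ) +
        2 * s * wint Γ e D.μ z a u ζ) ≤
      energy D.μ G e h₀ u + 2 * s * qf D.μ G e h₀ u (fun y => u y * ζ y) +
        s ^ 2 * energy D.μ G e h₀ (fun y => u y * ζ y) := by
  have hm := hCH.metric
  rw [← energy_add_mul hm hu.c1 hu.supp (contDiff_umul hu hζ) (supp_umul hu)]
  obtain ⟨hg, hb⟩ := barta_w (D := D) hn hCH hc (f := fun y => u y + s * (u y * ζ y))
    (hu.c1.add (contDiff_const.mul (contDiff_umul hu hζ)))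
    (hu.supp.add (supp_umul hu).mul_left) z ha hea
  have hmd := three_le_md hn
  refine le_trans ?_ (le_trans (le_add_of_nonneg_left (mul_nonneg (cc_pos hn).le hg)) hb)
  refine mul_le_mul_of_nonneg_left ?_ (mul_nonneg (by linarith) (by linarith))
  have i0 : Integrable (fun p => wgt Γ e z a p.1 ^ 2 * u p.1 ^ 2) D.μ := by
    simpa using integrable_wint (D := D) hm hc hu.c1.continuous hu.supp
      (continuous_const : Continuous fun _ : E n => (1 : ℝ)) z ha
  have i1 := integrable_wint (D := D) hm hc hu.c1.continuous hu.supp hζ.continuous z ha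
  rw [wint, ← integral_const_mul, ← integral_add i0 (i1.const_mul _)]
  refine integral_mono (i0.fun_add (i1.const_mul _)) ?_ fun p => ?_
  · refine D.integrable_of_supp hm ?_ hu.supp fun p hp => ?_
    · exact (((contDiff_wgt hc z ha).continuous.comp continuous_fst).pow 2).mul
        (((hu.c1.continuous.comp continuous_fst).add (continuous_const.mul
          ((hu.c1.continuous.comp continuous_fst).mul (hζ.continuous.comp continuous_fst)))).pow 2)
    · simp [image_eq_zero_of_notMem_tsupport hp]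
  · nlinarith [sq_nonneg (wgt Γ e z a p.1 * (s * (u p.1 * ζ p.1)))]

/-- The Euler equation against the weight. -/
theorem euler (hn : 4 ≤ n) (hCH : IsCHe G e) (hc : Comp Γ e) (K : ℝ) {δ : ℝ} (hδ : 0 < δ) :
    ∃ η : ℝ, 0 < η ∧ ∀ u z a, Adm D.μ u → 0 < a → e * a < 1 →
      energy D.μ G e h₀ u -
          md n * (md n - 1) * (∫ p, wgt Γ e z a p.1 ^ 2 * u p.1 ^ 2 ∂D.μ) ≤ η →
      ∀ ζ : E n → ℝ, ContDiff ℝ 1 ζ → energy D.μ G e h₀ (fun y => u y * ζ y) ≤ K →
        |qf D.μ G e h₀ u (fun y => u y * ζ y) - md n * (md n - 1) * wint Γ e D.μ z a u ζ| ≤ δ := by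
  obtain ⟨ε, hε, -, hεK⟩ := exists_param (K := |K|) (ε₀ := 1) (τ := δ) (abs_nonneg _) one_pos hδ
  refine ⟨ε * δ, by positivity, fun u z a hu ha hea hd ζ hζ hK => ?_⟩
  have h1 := euler_aux hn hCH hc hu (z := z) ha hea hζ ε
  have h2 := euler_aux hn hCH hc hu (z := z) ha hea hζ (-ε)
  have h3 := mul_le_mul_of_nonneg_left (hK.trans (le_abs_self K)) (sq_nonneg ε)
  have h4 := mul_le_mul_of_nonneg_left hεK hε.le
  rw [abs_le]
  have h2ε : (0 : ℝ) < 2 * ε := by linarith
  constructor <;> refine le_of_mul_le_mul_left ?_ h2ε <;> linarith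

theorem qf_umul (hG : IsMetric G) (hu : Adm D.μ u) {t ζ : E n → ℝ} (ht : ContDiff ℝ 1 t)
    (hζ : ContDiff ℝ 1 ζ) :
    qf D.μ G e h₀ (fun y => u y * t y) (fun y => u y * ζ y) =
      qf D.μ G e h₀ u (fun y => u y * (t y * ζ y)) +
        cc n * ∫ p, u p.1 ^ 2 * tgp G t ζ p ∂D.μ := by
  have i1 : Integrable (fun p => u p.1 ^ 2 * tgp G t ζ p) D.μ :=
    D.integrable_of_supp hG (((hu.c1.continuous.comp continuous_fst).pow 2).mul
      (continuous_tgp hG ht hζ)) hu.supp fun p hp => by simp [image_eq_zero_of_notMem_tsupport hp]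
  simp only [qf]
  rw [← integral_const_mul, ← integral_add (integrable_qf hG hu.c1 hu.supp
    (contDiff_umul hu (ht.mul hζ))) (i1.const_mul _)]
  refine integral_congr_ae (Eventually.of_forall fun p => ?_)
  simp only [tgp_eq, fderiv_mul_fun hu.c1 ht, fderiv_mul_fun hu.c1 hζ,
    fderiv_mul_fun hu.c1 (ht.mul hζ), fderiv_mul_fun ht hζ, tg_add_left, tg_smul_left,
    tg_add_right hG, tg_smul_right hG, tg_comm hG p (fderiv ℝ t p.1) (fderiv ℝ u p.1)]
  ring

theorem tgsq_umul (hG : IsMetric G) {u t : E n → ℝ} (hu : ContDiff ℝ 1 u) (ht : ContDiff ℝ 1 t)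
    (p : E n × E n) :
    tgsq G (fun y => u y * t y) p = t p.1 ^ 2 * tgsq G u p +
      2 * u p.1 * (t p.1 * tgp G u t p) + u p.1 ^ 2 * tgsq G t p := by
  simp only [tgsq, tgp_eq, fderiv_mul_fun hu ht, tg_comb hG]
  ring

/-- The energy of `u` times a frame. -/
theorem sum_energy_le (hn : 4 ≤ n) (hCH : IsCHe G e) (hc : Comp Γ e) (hu : Adm D.μ u) {z : E n}
    {a : ℝ} (ha : 0 < a) {t : Fin (n + 1) → E n → ℝ} (ht : ∀ i, ContDiff ℝ 1 (t i))
    (hsum : ∀ y, ∑ i, t i y ^ 2 = 1)
    (htg : ∀ q : E n × E n, G q.1 q.2 q.2 = 1 →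
      ∑ i, tgsq G (t i) q ≤ md n * wgt Γ e z a q.1 ^ 2) :
    ∑ i, energy D.μ G e h₀ (fun y => u y * t i y) ≤ energy D.μ G e h₀ u +
      cc n * md n * ∫ p, wgt Γ e z a p.1 ^ 2 * u p.1 ^ 2 ∂D.μ := by
  have hm := hCH.metric
  have iE : ∀ {f : E n → ℝ}, ContDiff ℝ 1 f → HasCompactSupport f →
      Integrable (fun p => cc n * tgsq G f p + lam n e h₀ * f p.1 ^ 2) D.μ := fun hf hfs => by
    simpa [tgsq, sq] using integrable_qf (D := D) (e := e) (h₀ := h₀) hm hf hfs hf
  have i0 : Integrable (fun p => wgt Γ e z a p.1 ^ 2 * u p.1 ^ 2) D.μ := by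
    simpa using integrable_wint (D := D) hm hc hu.c1.continuous hu.supp
      (continuous_const : Continuous fun _ : E n => (1 : ℝ)) z ha
  simp only [energy]
  rw [← integral_finsetSum _ fun i _ => iE (contDiff_umul hu (ht i)) (supp_umul hu),
    ← integral_const_mul, ← integral_add (iE hu.c1 hu.supp) (i0.const_mul _)]
  refine integral_mono_ae (integrable_finsetSum _ fun i _ =>
    iE (contDiff_umul hu (ht i)) (supp_umul hu))
    ((iE hu.c1 hu.supp).fun_add (i0.const_mul _)) ?_
  filter_upwards [D.unit] with p hp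
  have hz : ∑ i, t i p.1 * tgp G u (t i) p = 0 := by
    have hd : HasFDerivAt (fun y => ∑ i, t i y ^ 2) (∑ i, ((2 : ℕ) • t i p.1 ^ (2 - 1)) •
        fderiv ℝ (t i) p.1) p.1 :=
      HasFDerivAt.fun_sum fun i _ => ((ht i).differentiable one_ne_zero p.1).hasFDerivAt.pow 2
    rw [funext hsum] at hd
    have h0 := hd.unique (hasFDerivAt_const 1 p.1)
    have h1 := congrArg (fun L : E n →L[ℝ] ℝ => L (grad G u p.1) - L p.2 * fderiv ℝ u p.1 p.2) h0
    simp only [sum_apply, smul_apply, nsmul_eq_mul, smul_eq_mul,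
      zero_apply, zero_mul, sub_zero, Finset.sum_mul, ← Finset.sum_sub_distrib] at h1
    norm_num at h1
    have e1 : ∀ i, 2 * t i p.1 * fderiv ℝ (t i) p.1 (grad G u p.1) -
        2 * t i p.1 * fderiv ℝ (t i) p.1 p.2 * fderiv ℝ u p.1 p.2 =
          2 * (t i p.1 * tgp G u (t i) p) := fun i => by
      rw [tgp_comm hm u (t i) p, tgp]; ring
    rw [← Finset.sum_sub_distrib, Finset.sum_congr rfl fun i _ => e1 i, ← Finset.mul_sum] at h1
    linarith
  simp only [tgsq_umul hm hu.c1 (ht _), mul_pow, mul_add, Finset.sum_add_distrib]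
  simp only [← Finset.mul_sum, ← Finset.sum_mul]
  rw [hsum, hz]
  have := mul_le_mul_of_nonneg_left (htg p hp) (mul_nonneg (cc_pos hn).le (sq_nonneg (u p.1)))
  linarith

/-- Small gap and almost minimal second variation along the coordinates of the sphere. -/
theorem frame (hs : SphereStmt) (hn : 4 ≤ n) (hCH : IsCHe G e) (hc : Comp Γ e)
    (hl : 0 < lam n e h₀) {δ : ℝ} (hδ : 0 < δ) :
    ∃ η : ℝ, 0 < η ∧ ∀ u z a, Adm D.μ u → energy D.μ G e h₀ u ≤ Yinf D.μ G e h₀ + η →
      Balanced Γ e D.μ u z a →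
      gap Γ e D.μ z a u ≤ δ ∧
      |Yinf D.μ G e h₀ -
          md n * (md n - 1) * ∫ p, wgt Γ e z a p.1 ^ 2 * u p.1 ^ 2 ∂D.μ| ≤ δ ∧
      energy D.μ G e h₀ u -
          md n * (md n - 1) * (∫ p, wgt Γ e z a p.1 ^ 2 * u p.1 ^ 2 ∂D.μ) ≤ δ ∧
      ∀ p₀, SphUnit G z p₀ →
        energy D.μ G e h₀ (fun y => u y * sph Γ e z a p₀ y) -
          (qe n - 1) * Yinf D.μ G e h₀ * (mom D.μ u fun y => sph Γ e z a p₀ y ^ 2) ≤ δ := by
  have hm := hCH.metric
  have hq := two_lt_qe hn
  have hcc := cc_pos hn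
  set k := min 1 ((qe n - 2) * min 1 (cc n)) / 4 with hk
  have hk0 : 0 < k := div_pos (lt_min one_pos (mul_pos (by linarith) (lt_min one_pos hcc))) four_pos
  obtain ⟨η₂, hη₂, h2⟩ := second (D := D) (e := e) hn hm hl
    (δ := k * δ / (n + 1)) (by positivity)
  refine ⟨min η₂ (k * δ / qe n), lt_min hη₂ (by positivity), fun u z a hu hE hb => ?_⟩
  have hY := Y_le hn hm hl hu (e := e)
  set Y := Yinf D.μ G e h₀
  set W := ∫ p, wgt Γ e z a p.1 ^ 2 * u p.1 ^ 2 ∂D.μ
  set Eu := energy D.μ G e h₀ u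
  have hη : (qe n - 1) * (Eu - Y) ≤ k * δ := by
    have : Eu - Y ≤ k * δ / qe n := by linarith [min_le_right η₂ (k * δ / qe n)]
    rw [le_div_iff₀ (by linarith)] at this
    nlinarith
  obtain ⟨hg0, hbw⟩ := barta_w (D := D) hn hCH hc hu.c1 hu.supp z hb.pos hb.small
  have hsp := hs n G e Γ (by omega) hCH hc z a hb.pos hb.small
  obtain ⟨hsC, -, -, -, hsle, -, hsfr, -⟩ := hsp
  have main : ∀ p₀, SphUnit G z p₀ →
      (qe n - 2) * cc n * gap Γ e D.μ z a u ≤ 2 * (k * δ) ∧
      (qe n - 2) * (Y - md n * (md n - 1) * W) ≤ 2 * (k * δ) ∧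
      energy D.μ G e h₀ (fun y => u y * sph Γ e z a p₀ y) -
        (qe n - 1) * Y * (mom D.μ u fun y => sph Γ e z a p₀ y ^ 2) ≤ 2 * (k * δ) := by
    intro p₀ hp₀
    obtain ⟨P, hP0, hPu, hPs, hPt⟩ := hsfr p₀ hp₀
    set b : Fin (n + 1) → ℝ := fun i => energy D.μ G e h₀ (fun y => u y * sph Γ e z a (P i) y) -
      (qe n - 1) * Y * (mom D.μ u fun y => sph Γ e z a (P i) y ^ 2)
    have hb1 : ∀ i, -(k * δ / (n + 1)) ≤ b i := fun i => by
      have hz : mom D.μ u (sph Γ e z a (P i)) = 0 := by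
        rw [mom, ← hb.zero _ (hPu i)]; simp only [mul_comm]
      have := h2 u hu (hE.trans (by linarith [min_le_left η₂ (k * δ / qe n)])) _ (hsC _)
        (hsle _ (hPu i)) hz
      simp only [b]; linarith
    have hmom : ∑ i, (mom D.μ u fun y => sph Γ e z a (P i) y ^ 2) = 1 := by
      simp only [mom]
      rw [← integral_finsetSum _ fun i _ =>
        integrable_mom hn hm hu (f := fun y => sph Γ e z a (P i) y ^ 2) ((hsC _).continuous.pow 2)]
      simp only [← Finset.sum_mul, hPs, one_mul, hu.norm]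
    have hbs : ∑ i, b i ≤ Eu + cc n * md n * W - (qe n - 1) * Y := by
      have := sum_energy_le (D := D) hn hCH hc hu (z := z) hb.pos (fun i => hsC (P i)) hPs hPt
      simp only [b, Finset.sum_sub_distrib, ← Finset.mul_sum, hmom]
      linarith
    have hcm : cc n * md n * W = (qe n - 2) * (md n * (md n - 1) * W) := by rw [cc_div hn]; ring
    have hlow : -(k * δ) ≤ ∑ i, b i := by
      have := Finset.sum_le_sum (s := Finset.univ) fun i _ => hb1 i
      simp [Finset.sum_const, Finset.card_univ] at this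
      field_simp at this
      linarith
    have hlow0 : b 0 - k * δ ≤ ∑ i, b i := by
      rw [Fin.sum_univ_succ]
      have h' := Finset.sum_le_sum (s := Finset.univ) fun (i : Fin n) _ => hb1 i.succ
      simp [Finset.sum_const, Finset.card_univ] at h'
      have : (n : ℝ) * (k * δ / (n + 1)) ≤ k * δ := by
        rw [mul_div, div_le_iff₀ (by positivity)]
        nlinarith [mul_pos hk0 hδ]
      linarith
    have hup := mul_le_mul_of_nonneg_left hbw (by linarith : 0 ≤ qe n - 2)
    have hgg : 0 ≤ (qe n - 2) * (cc n * gap Γ e D.μ z a u) :=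
      mul_nonneg (by linarith) (mul_nonneg hcc.le hg0)
    have hη' : Eu - Y ≤ k * δ := by nlinarith
    refine ⟨by linarith, by linarith, ?_⟩
    have e0 : b 0 ≤ 2 * (k * δ) := by linarith
    simpa [b, hP0] using e0
  obtain ⟨m1, m2, -⟩ := main (0, 1) (by simp [SphUnit])
  have hk1 : 4 * k ≤ 1 := by linarith [min_le_left 1 ((qe n - 2) * min 1 (cc n))]
  have hk2 : 4 * k ≤ (qe n - 2) * min 1 (cc n) := by
    linarith [min_le_right 1 ((qe n - 2) * min 1 (cc n))]
  have hq2 : 0 < qe n - 2 := by linarith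
  have hkA : 4 * k ≤ (qe n - 2) * cc n :=
    hk2.trans (mul_le_mul_of_nonneg_left (min_le_right _ _) hq2.le)
  have hkB : 4 * k ≤ qe n - 2 :=
    hk2.trans ((mul_le_mul_of_nonneg_left (min_le_left _ _) hq2.le).trans (mul_one _).le)
  have hη2 : Eu - Y ≤ δ / 4 := by nlinarith
  have hYW : Y - md n * (md n - 1) * W ≤ δ / 2 := by
    refine le_of_mul_le_mul_left ?_ hq2
    linarith [mul_le_mul_of_nonneg_right hkB hδ.le]
  refine ⟨?_, ?_, by linarith, fun p₀ hp₀ => ?_⟩
  · refine le_of_mul_le_mul_left ?_ (mul_pos hq2 hcc)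
    linarith [mul_le_mul_of_nonneg_right hkA hδ.le, mul_pos hk0 hδ]
  · rw [abs_le]; constructor
    · linarith [mul_nonneg hcc.le hg0]
    · linarith
  · linarith [(main p₀ hp₀).2.2, mul_le_mul_of_nonneg_right hk1 hδ.le]

theorem qf_half (hG : IsMetric G) (hu : Adm D.μ u) {f : E n → ℝ} (hf : ContDiff ℝ 1 f) (c : ℝ) :
    qf D.μ G e h₀ u (fun y => u y * (c * f y)) = c * qf D.μ G e h₀ u (fun y => u y * f y) := by
  simp only [qf]
  rw [← integral_const_mul]
  refine integral_congr_ae (Eventually.of_forall fun p => ?_)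
  have h : fderiv ℝ (fun y => u y * (c * f y)) p.1 = c • fderiv ℝ (fun y => u y * f y) p.1 := by
    have e1 : (fun y => u y * (c * f y)) = fun y => c * (u y * f y) := funext fun y => by ring
    rw [e1]
    exact (((contDiff_umul hu hf).differentiable one_ne_zero p.1).hasFDerivAt.const_mul c).fderiv
  simp only [tgp_eq, h, tg_smul_right hG]
  ring

/-- The Euler equation and the second variation at almost minimisers. -/
theorem almost (hs : SphereStmt) : AlmostStmt := by
  intro n G e Γ h₀ hn hCH hc D hl τ B hτ hB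
  have hm := hCH.metric
  have hq := two_lt_qe hn
  have hcc := cc_pos hn
  have hmd := three_le_md hn
  have hY0 := Y_nonneg (D := D) (e := e) hn hm hl
  set Y := Yinf D.μ G e h₀ with hYdef
  set Bt := (Y + 1) / (md n * (md n - 1)) with hBt
  have hq2 : 0 < qe n - 2 := by linarith
  set K₁ := 8 * (Y + 1) + 2 * cc n * (2 * Bt + 2 * B) with hK₁
  set τ' := (qe n - 2) * τ with hτ'
  have hτ'0 : 0 < τ' := mul_pos hq2 hτ
  have hmm : (0 : ℝ) < md n * (md n - 1) := mul_pos (by linarith) (by linarith)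
  have hBt0 : 0 ≤ Bt := div_nonneg (by linarith) hmm.le
  have hK0 : 0 ≤ K₁ := by positivity
  obtain ⟨s, hs0, hs1, hsK⟩ := exists_param (K := K₁) (ε₀ := 1) (τ := τ' / 2) hK0 one_pos
    (by positivity)
  obtain ⟨η₁, hη₁, h1⟩ := first (D := D) (e := e) hn hm hl K₁
    (δ := min (τ / 2) (τ' / 8)) (by positivity)
  obtain ⟨η₂, hη₂, h2⟩ := second (D := D) (e := e) hn hm hl
    (δ := s * τ' / 36) (by positivity)
  obtain ⟨η₃, hη₃, h3⟩ := euler (D := D) (Γ := Γ) hn hCH hc K₁ (δ := τ / 2) (by positivity)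
  obtain ⟨η₄, hη₄, h4⟩ := frame (D := D) (Γ := Γ) hs hn hCH hc hl
    (δ := min (min τ η₃) (s * τ' / 4)) (by positivity)
  refine ⟨min (min η₁ η₂) (min η₄ 1), by positivity, fun u z a hu hE hb => ?_⟩
  have hE1 : energy D.μ G e h₀ u ≤ Y + η₁ := by
    linarith [(min_le_left (min η₁ η₂) (min η₄ 1)).trans (min_le_left η₁ η₂)]
  have hE2 : energy D.μ G e h₀ u ≤ Y + η₂ := by
    linarith [(min_le_left (min η₁ η₂) (min η₄ 1)).trans (min_le_right η₁ η₂)]
  have hE4 : energy D.μ G e h₀ u ≤ Y + η₄ := by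
    linarith [(min_le_right (min η₁ η₂) (min η₄ 1)).trans (min_le_left η₄ 1)]
  have hE5 : energy D.μ G e h₀ u ≤ Y + 1 := by
    linarith [(min_le_right (min η₁ η₂) (min η₄ 1)).trans (min_le_right η₄ 1)]
  obtain ⟨hgap, hW, hd, hbt⟩ := h4 u z a hu hE4 hb
  have hm4 : min (min τ η₃) (s * τ' / 4) ≤ τ := (min_le_left _ _).trans (min_le_left _ _)
  refine ⟨hgap.trans hm4, hW.trans hm4, fun ζ hζ hζ1 hζB => ?_⟩
  obtain ⟨hsC, -, -, -, hsle, hstg, -, -⟩ := hs n G e Γ (by omega) hCH hc z a hb.pos hb.small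
  have hcB := mul_nonneg hcc.le hBt0
  have hEζ : energy D.μ G e h₀ (fun y => u y * ζ y) ≤ K₁ := by
    refine (energy_umul_le hn hm hl hu hζ hζ1 hζB).trans ?_
    have := mul_nonneg hcc.le hB.le
    rw [hK₁]; linarith
  constructor
  · have a1 := h1 u hu hE1 ζ hζ hζ1 hEζ
    have a3 := h3 u z a hu hb.pos hb.small
      (hd.trans ((min_le_left _ _).trans (min_le_right _ _))) ζ hζ hEζ
    change |Y * mom D.μ u ζ - md n * (md n - 1) * wint Γ e D.μ z a u ζ| ≤ τ
    have := min_le_left (τ / 2) (τ' / 8)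
    rw [abs_le] at a1 a3 ⊢
    constructor <;> linarith
  intro p₀ hp₀
  set t := sph Γ e z a p₀ with ht
  have htC : ContDiff ℝ 1 t := hsC p₀
  have ht1 : ∀ y, |t y| ≤ 1 := hsle p₀ hp₀
  have hmt : mom D.μ u t = 0 := by
    rw [mom, ← hb.zero _ hp₀]; simp only [mul_comm, ht]
  set M₁ := mom D.μ u ζ with hM₁
  have hM₁1 : |M₁| ≤ 1 := abs_mom_le hn hm hu hζ.continuous hζ1
  set g : E n → ℝ := fun y => ζ y - M₁ with hg
  have hgC : ContDiff ℝ 1 g := hζ.sub contDiff_const
  have hg2 : ∀ y, |g y| ≤ 2 := fun y => by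
    have := hζ1 y
    rw [abs_le] at this hM₁1 ⊢
    constructor <;> simp only [g] <;> linarith
  have hgd : ∀ y, fderiv ℝ g y = fderiv ℝ ζ y := fun y => fderiv_sub_const (f := ζ) M₁
  have hgB : ∫ p, u p.1 ^ 2 * tgsq G g p ∂D.μ ≤ B := by
    refine le_of_eq_of_le (integral_congr_ae (Eventually.of_forall fun p => ?_)) hζB
    simp only [tgsq, tgp_eq, hgd]
  have itg : ∀ {f : E n → ℝ}, ContDiff ℝ 1 f →
      Integrable (fun p => u p.1 ^ 2 * tgsq G f p) D.μ := fun hf =>
    D.integrable_of_supp hm (((hu.c1.continuous.comp continuous_fst).pow 2).mul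
      (continuous_tgsq hm hf)) hu.supp fun p hp => by simp [image_eq_zero_of_notMem_tsupport hp]
  have htB : ∫ p, u p.1 ^ 2 * tgsq G t p ∂D.μ ≤ Bt := by
    have h := (barta_w (D := D) hn hCH hc hu.c1 hu.supp z hb.pos hb.small)
    rw [hBt, le_div_iff₀ hmm]
    refine le_trans ?_ (le_trans ((le_add_of_nonneg_left (mul_nonneg hcc.le h.1)).trans h.2) hE5)
    rw [mul_comm]
    refine mul_le_mul_of_nonneg_left ?_ hmm.le
    have i0 : Integrable (fun p => wgt Γ e z a p.1 ^ 2 * u p.1 ^ 2) D.μ := by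
      simpa using integrable_wint (D := D) hm hc hu.c1.continuous hu.supp
        (continuous_const : Continuous fun _ : E n => (1 : ℝ)) z hb.pos
    refine integral_mono_ae (itg htC) i0 ?_
    filter_upwards [D.unit] with p hp
    have := mul_le_mul_of_nonneg_left (hstg p₀ hp₀ p hp) (sq_nonneg (u p.1))
    nlinarith [mul_nonneg (mul_nonneg (sq_nonneg (u p.1)) (sq_nonneg (wgt Γ e z a p.1)))
      (sq_nonneg (t p.1))]
  have hEg : energy D.μ G e h₀ (fun y => u y * g y) ≤ K₁ := by
    refine (energy_umul_le hn hm hl hu hgC hg2 hgB).trans ?_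
    have := mul_nonneg hcc.le hB.le
    rw [hK₁]; linarith
  set f : E n → ℝ := fun y => t y * (1 / 2 * g y) with hf
  have hhC : ContDiff ℝ 1 fun y => 1 / 2 * g y := contDiff_const.mul hgC
  have hfC : ContDiff ℝ 1 f := htC.mul hhC
  have hh1 : ∀ y, |1 / 2 * g y| ≤ 1 := fun y => by rw [abs_mul]; norm_num; linarith [hg2 y]
  have hf1 : ∀ y, |f y| ≤ 1 := fun y => by
    rw [hf, abs_mul]; exact mul_le_one₀ (ht1 y) (abs_nonneg _) (hh1 y)
  have hfB : ∫ p, u p.1 ^ 2 * tgsq G f p ∂D.μ ≤ 2 * Bt + 2 * B := by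
    calc ∫ p, u p.1 ^ 2 * tgsq G f p ∂D.μ
        ≤ ∫ p, (2 * (u p.1 ^ 2 * tgsq G t p) + 2 * (u p.1 ^ 2 * tgsq G g p)) ∂D.μ := by
          refine integral_mono_ae (itg hfC) (((itg htC).const_mul _).fun_add ((itg hgC).const_mul _)) ?_
          filter_upwards [D.unit] with p hp
          have h := tgsq_mul_le hm hp (htC.differentiable one_ne_zero p.1)
            (hhC.differentiable one_ne_zero p.1)
          have e1 : tgsq G (fun y => 1 / 2 * g y) p = 1 / 4 * tgsq G g p := by
            simp only [tgsq, tgp_eq]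
            rw [show fderiv ℝ (fun y => 1 / 2 * g y) p.1 = (1 / 2 : ℝ) • fderiv ℝ g p.1 from
              ((hgC.differentiable one_ne_zero p.1).hasFDerivAt.const_mul _).fderiv,
              tg_smul_left, tg_smul_right hm]
            ring
          rw [e1] at h
          have n1 : (1 / 2 * g p.1) ^ 2 ≤ 1 := (sq_le_one_iff_abs_le_one _).2 (hh1 _)
          have n2 : t p.1 ^ 2 ≤ 1 := (sq_le_one_iff_abs_le_one _).2 (ht1 _)
          have b1 := mul_le_mul_of_nonneg_right n1 (tgsq_nonneg hm t hp)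
          have b2 := mul_le_mul_of_nonneg_right n2 (tgsq_nonneg hm g hp)
          have := mul_le_mul_of_nonneg_left (h.trans (by
            linarith [tgsq_nonneg hm g hp] : _ ≤ 2 * tgsq G t p + 2 * tgsq G g p)) (sq_nonneg (u p.1))
          linarith
      _ = 2 * (∫ p, u p.1 ^ 2 * tgsq G t p ∂D.μ) + 2 * ∫ p, u p.1 ^ 2 * tgsq G g p ∂D.μ := by
          rw [integral_add ((itg htC).const_mul _) ((itg hgC).const_mul _), integral_const_mul,
            integral_const_mul]
      _ ≤ _ := by linarith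
  have hEf : energy D.μ G e h₀ (fun y => u y * f y) ≤ K₁ := by
    refine (energy_umul_le hn hm hl hu hfC hf1 hfB).trans ?_
    rw [hK₁]; linarith
  have a1 := h1 u hu hE1 f hfC hf1 hEf
  have mT := integrable_mom hn hm hu (htC.continuous.mul hζ.continuous) (f := fun y => t y * ζ y)
  have mtg : mom D.μ u (fun y => t y * g y) = mom D.μ u fun y => t y * ζ y := by
    have e1 : mom D.μ u (fun y => t y * g y) =
        mom D.μ u (fun y => t y * ζ y) - M₁ * mom D.μ u t := by
      simp only [mom]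
      rw [← integral_const_mul, ← integral_sub mT ((integrable_mom hn hm hu htC.continuous).const_mul _)]
      exact integral_congr_ae (Eventually.of_forall fun p => by simp only [g]; ring)
    rw [e1, hmt]; ring
  have ef : mom D.μ u f = 1 / 2 * mom D.μ u fun y => t y * ζ y := by
    rw [← mtg]; simp only [mom, ← integral_const_mul]
    exact integral_congr_ae (Eventually.of_forall fun p => by simp only [f]; ring)
  have eq : qf D.μ G e h₀ u (fun y => u y * f y) =
      1 / 2 * qf D.μ G e h₀ u (fun y => u y * (t y * g y)) := by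
    rw [← qf_half hm hu (f := fun y => t y * g y) (htC.mul hgC)]
    simp only [f]; ring_nf
  rw [eq, ef] at a1
  set V := mom D.μ u fun y => t y * ζ y
  set I := ∫ p, u p.1 ^ 2 * tgp G t ζ p ∂D.μ with hI
  have hII : ∫ p, u p.1 ^ 2 * tgp G t g p ∂D.μ = I := by simp only [hI, tgp_eq, hgd]
  have key : ∀ r : ℝ, |r| = s →
      -(s * τ' / 4) ≤ s * τ' / 4 + 2 * r * (qf D.μ G e h₀ u (fun y => u y * (t y * g y)) +
        cc n * I - (qe n - 1) * Y * V) + s ^ 2 * K₁ := by
    intro r hr
    set ξ : E n → ℝ := fun y => 1 / 3 * (t y + r * g y) with hξ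
    have hξC : ContDiff ℝ 1 ξ := contDiff_const.mul (htC.add (contDiff_const.mul hgC))
    have hξ1 : ∀ y, |ξ y| ≤ 1 := fun y => by
      have h := abs_add_le (t y) (r * g y)
      rw [abs_mul r, hr] at h
      have := mul_le_mul hs1 (hg2 y) (abs_nonneg _) zero_le_one
      rw [hξ, abs_mul]; norm_num
      linarith [ht1 y]
    have iT := integrable_mom hn hm hu htC.continuous
    have iG := integrable_mom hn hm hu hgC.continuous
    have iTT := integrable_mom hn hm hu (f := fun y => t y ^ 2) (htC.continuous.pow 2)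
    have iTG := integrable_mom hn hm hu (f := fun y => t y * g y) (htC.continuous.mul hgC.continuous)
    have iGG := integrable_mom hn hm hu (f := fun y => g y ^ 2) (hgC.continuous.pow 2)
    have hξ0 : mom D.μ u ξ = 0 := by
      have hg0 : mom D.μ u g = 0 := by
        have : mom D.μ u g = M₁ - M₁ * ∫ p, u p.1 ^ qe n ∂D.μ := by
          simp only [hM₁, mom, g]
          rw [← integral_const_mul, ← integral_sub (integrable_mom hn hm hu hζ.continuous)
            ((integrable_pow hn hm hu).const_mul _)]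
          exact integral_congr_ae (Eventually.of_forall fun p => by ring)
        rw [this, hu.norm]; ring
      have : mom D.μ u ξ = 1 / 3 * (mom D.μ u t + r * mom D.μ u g) := by
        simp only [mom]
        rw [← integral_const_mul r, ← integral_add iT (iG.const_mul _), ← integral_const_mul]
        exact integral_congr_ae (Eventually.of_forall fun p => by simp only [ξ]; ring)
      rw [this, hmt, hg0]; ring
    have a2 := h2 u hu hE2 ξ hξC hξ1 hξ0
    have e1 : energy D.μ G e h₀ (fun y => u y * ξ y) = (1 / 3) ^ 2 *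
        (energy D.μ G e h₀ (fun y => u y * t y) +
          2 * r * qf D.μ G e h₀ (fun y => u y * t y) (fun y => u y * g y) +
          r ^ 2 * energy D.μ G e h₀ (fun y => u y * g y)) := by
      rw [← energy_add_mul hm (contDiff_umul hu htC) (supp_umul hu) (contDiff_umul hu hgC)
        (supp_umul hu), ← energy_const_mul hm
        (f := fun y => u y * t y + r * (u y * g y))
        ((contDiff_umul hu htC).add (contDiff_const.mul (contDiff_umul hu hgC)))]
      congr 1; funext y; simp only [ξ]; ring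
    have e2 : (mom D.μ u fun y => ξ y ^ 2) = (1 / 3) ^ 2 * ((mom D.μ u fun y => t y ^ 2) +
        2 * r * (mom D.μ u fun y => t y * g y) + r ^ 2 * mom D.μ u fun y => g y ^ 2) := by
      simp only [mom]
      rw [← integral_const_mul (2 * r), ← integral_add iTT (iTG.const_mul _),
        ← integral_const_mul (r ^ 2), ← integral_add (iTT.fun_add (iTG.const_mul _))
        (iGG.const_mul _), ← integral_const_mul]
      exact integral_congr_ae (Eventually.of_forall fun p => by simp only [ξ]; ring)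
    rw [e1, e2, qf_umul hm hu htC hgC, hII, mtg] at a2
    have hgg : 0 ≤ mom D.μ u fun y => g y ^ 2 :=
      integral_nonneg fun p => mul_nonneg (sq_nonneg _) (Real.rpow_nonneg (hu.nonneg _) _)
    have hr2 : r ^ 2 = s ^ 2 := by rw [← sq_abs, hr]
    rw [hr2] at a2
    have := mul_le_mul_of_nonneg_left hEg (sq_nonneg s)
    have := mul_nonneg (mul_nonneg (mul_nonneg (by linarith : 0 ≤ qe n - 1) hY0) (sq_nonneg s)) hgg
    linarith [(hbt p₀ hp₀).trans (min_le_right _ _)]
  have k1 := key s (abs_of_pos hs0)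
  have k2 := key (-s) (by rw [abs_neg, abs_of_pos hs0])
  have k3 := mul_le_mul_of_nonneg_left hsK hs0.le
  set Q := qf D.μ G e h₀ u (fun y => u y * (t y * g y))
  have b : |Q + cc n * I - (qe n - 1) * Y * V| ≤ τ' / 2 := by
    rw [abs_le]; constructor <;> refine le_of_mul_le_mul_left ?_ hs0 <;> linarith
  have hm8 := min_le_right (τ / 2) (τ' / 8)
  have c1 : |cc n * I - (qe n - 2) * (Y * V)| ≤ τ' := by
    rw [abs_le] at a1 b ⊢
    constructor <;> linarith
  change |(md n - 1) * I - Y * V| ≤ τ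
  rw [cc_div hn, hτ', show (md n - 1) * (qe n - 2) * I - (qe n - 2) * (Y * V) =
    (qe n - 2) * ((md n - 1) * I - Y * V) by ring, abs_mul, abs_of_pos hq2] at c1
  exact le_of_mul_le_mul_left c1 hq2

end Vari

end

end Vale.Agent.P219.CH.Full
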