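import Vale.Agent.P219.CH.Full.Variational.Tgp
import Vale.Agent.P219.CH.Full.Statements

/-!
P219, full inequality: the inequality of Barta with its slacks.
-/

namespace Vale.Agent.P219.CH.Full

open MeasureTheory Filter Topology Set Vale.Agent.P219.CH.Core.Field
open scoped ContDiff RealInnerProductSpace

noncomputable section

namespace Vari

variable {n : ℕ} {G : Coeff n} {Γ : Geo G} {e h₀ : ℝ}

theorem kk_pos {a : ℝ} (ha : 0 < a) (hea : e * a < 1) : 0 < kk e a :=
  Real.sqrt_pos.2 (mul_pos ha (by linarith))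

theorem kk_sq {a : ℝ} (ha : 0 < a) (hea : e * a < 1) : kk e a ^ 2 = a * (2 - e * a) :=
  Real.sq_sqrt (mul_nonneg ha.le (by linarith))

theorem psi_pos (hc : Comp Γ e) (z : E n) {a : ℝ} (ha : 0 < a) (y : E n) :
    0 < psi Γ e z a y :=
  lt_of_lt_of_le ha (le_add_of_nonneg_left (hc.phi_nonneg z y))

theorem contDiff_phi (hc : Comp Γ e) (z : E n) : ContDiff ℝ 1 (phi Γ e z) :=
  hc.phi_c1.comp (contDiff_prodMk_right z)

theorem contDiff_psi (hc : Comp Γ e) (z : E n) (a : ℝ) : ContDiff ℝ 1 (psi Γ e z a) :=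
  (contDiff_phi hc z).add contDiff_const

theorem contDiff_gradPhi (hc : Comp Γ e) (z : E n) : ContDiff ℝ 1 (gradPhi Γ e z) :=
  hc.grad_c1.comp (contDiff_prodMk_right z)

theorem contDiff_wgt (hc : Comp Γ e) (z : E n) {a : ℝ} (ha : 0 < a) :
    ContDiff ℝ 1 (wgt Γ e z a) :=
  contDiff_const.div (contDiff_psi hc z a) fun y => (psi_pos hc z ha y).ne'

theorem wgt_pos (hc : Comp Γ e) (z : E n) {a : ℝ} (ha : 0 < a) (hea : e * a < 1)
    (y : E n) : 0 < wgt Γ e z a y :=
  div_pos (kk_pos ha hea) (psi_pos hc z ha y)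

theorem wgt_le (hc : Comp Γ e) (z : E n) {a : ℝ} (ha : 0 < a)
    (hea : e * a < 1) (y : E n) : wgt Γ e z a y ≤ kk e a / a :=
  div_le_div_of_nonneg_left (kk_pos ha hea).le ha (le_add_of_nonneg_left (hc.phi_nonneg z y))

theorem raise_phi (hm : IsMetric G) (hc : Comp Γ e) (z y : E n) :
    raise G y (fderiv ℝ (phi Γ e z) y) = gradPhi Γ e z y :=
  hm.ext (x := y) fun w => by rw [← hc.fderiv_right]; exact hm.G_inverse_sharp y _ w

theorem tg_phi (hm : IsMetric G) (hc : Comp Γ e) (z : E n) (p : E n × E n) :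
    tg G p (fderiv ℝ (phi Γ e z) p.1) (fderiv ℝ (phi Γ e z) p.1) =
      2 * phi Γ e z p.1 + e * phi Γ e z p.1 ^ 2 - fderiv ℝ (phi Γ e z) p.1 p.2 ^ 2 := by
  rw [tg, raise_phi hm hc, hc.fderiv_right, hc.grad_sq, sq (fderiv ℝ (phi Γ e z) p.1 p.2)]

/-- The tangential divergence of `∇φ`. -/
theorem divT_gradPhi_ge (hCH : IsCHe G e) (hc : Comp Γ e) (z : E n) {p : E n × E n}
    (hp : G p.1 p.2 p.2 = 1) :
    md n * (1 + e * phi Γ e z p.1) ≤ divT G (gradPhi Γ e z) p := by
  obtain ⟨y, N⟩ := p
  have hk : 0 < 1 + e * phi Γ e z y := by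
    have := mul_nonneg hCH.nonneg (hc.phi_nonneg z y); linarith
  have h := le_trace_sub (G y) (hCH.metric.symm y) (hCH.metric.pos y)
    ((1 + e * phi Γ e z y)⁻¹ • covdL G (gradPhi Γ e z) y) (fun w => ?_) (ν := N) (Or.inr hp)
  · rw [map_smul, LinearMap.smul_apply, map_smul, smul_apply, ← divg_eq_trace, covdL_apply,
      smul_eq_mul, smul_eq_mul, ← mul_sub, le_inv_mul_iff₀ hk] at h
    simp only [divT] at *
    rw [hp] at h
    rw [md]
    linarith
  · rw [LinearMap.smul_apply, map_smul, smul_apply, covdL_apply, smul_eq_mul, le_inv_mul_iff₀ hk]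
    exact hc.hess z y w

/-- The first variation along `s ∇φ`. -/
theorem star (hCH : IsCHe G e) (hc : Comp Γ e) (D : Varifold G h₀) (z : E n) {s : E n → ℝ}
    (hs : ContDiff ℝ 1 s) (hsc : HasCompactSupport s) (hs0 : ∀ y, 0 ≤ s y) :
    Integrable (fun p => tgp G s (phi Γ e z) p + s p.1 * (md n * (1 + e * phi Γ e z p.1) -
        D.h p.1 * fderiv ℝ (phi Γ e z) p.1 p.2)) D.μ ∧
      ∫ p, (tgp G s (phi Γ e z) p + s p.1 * (md n * (1 + e * phi Γ e z p.1) -
        D.h p.1 * fderiv ℝ (phi Γ e z) p.1 p.2)) ∂D.μ ≤ 0 := by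
  have hm := hCH.metric
  set X : E n → E n := fun y => s y • gradPhi Γ e z y with hX
  have hV := contDiff_gradPhi hc z
  have hXc : ContDiff ℝ 1 X := hs.smul hV
  have hXs : HasCompactSupport X := hsc.smul_right
  have hcov : ∀ y w, covd G X y w =
      fderiv ℝ s y w • gradPhi Γ e z y + s y • covd G (gradPhi Γ e z) y w := by
    intro y w
    have h1 := ((hs.differentiable one_ne_zero y).hasFDerivAt.smul
      (hV.differentiable one_ne_zero y).hasFDerivAt).fderiv
    change fderiv ℝ X y = _ at h1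
    simp only [covd, h1, add_apply, smul_apply, ContinuousLinearMap.smulRight_apply, X,
      chr_smul_right]
    rw [smul_add]
    abel
  have hdiv : ∀ y, divg G X y =
      fderiv ℝ s y (gradPhi Γ e z y) + s y * divg G (gradPhi Γ e z) y := by
    intro y
    simp only [divg, hcov, PiLp.add_apply, PiLp.smul_apply, smul_eq_mul, Finset.sum_add_distrib,
      ← Finset.mul_sum]
    rw [sum_mul_coord]
  have hT : ∀ p : E n × E n, divT G X p =
      tgp G s (phi Γ e z) p + s p.1 * divT G (gradPhi Γ e z) p := by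
    intro p
    rw [tgp_eq, tg, raise_phi hm hc, hc.fderiv_right]
    simp only [divT, hdiv, hcov, map_add, map_smul, add_apply, smul_apply, smul_eq_mul]
    ring
  have hGX : ∀ p : E n × E n, D.h p.1 * G p.1 (X p.1) p.2 =
      s p.1 * (D.h p.1 * fderiv ℝ (phi Γ e z) p.1 p.2) := by
    intro p
    simp only [X, map_smul, smul_apply, smul_eq_mul, hc.fderiv_right]
    ring
  have hK : IsCompact (tsupport s) := hsc
  have hφc : Continuous fun p : E n × E n => fderiv ℝ (phi Γ e z) p.1 p.2 :=
    (((contDiff_phi hc z).continuous_fderiv one_ne_zero).comp continuous_fst).clm_apply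
      continuous_snd
  have hφ : Continuous fun p : E n × E n => phi Γ e z p.1 :=
    (contDiff_phi hc z).continuous.comp continuous_fst
  have hsp : Continuous fun p : E n × E n => s p.1 := hs.continuous.comp continuous_fst
  have hh : Continuous fun p : E n × E n => D.h p.1 := D.h_cont.comp continuous_fst
  have hI : Integrable (fun p => tgp G s (phi Γ e z) p + s p.1 * (md n * (1 + e * phi Γ e z p.1) -
      D.h p.1 * fderiv ℝ (phi Γ e z) p.1 p.2)) D.μ := by
    refine D.integrable_of_supp hm ?_ hK fun p hp => ?_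
    · have := continuous_tgp hm hs (contDiff_phi hc z)
      fun_prop
    · simp [tgp_eq_zero_left hp, image_eq_zero_of_notMem_tsupport hp]
  refine ⟨hI, ?_⟩
  have hfv := D.first X hXc hXs
  have hIh : Integrable (fun p => D.h p.1 * G p.1 (X p.1) p.2) D.μ := by
    refine D.integrable_of_supp hm ?_ hK fun p hp => ?_
    · simp only [hGX]; fun_prop
    · simp [hGX, image_eq_zero_of_notMem_tsupport hp]
  have hcc : Continuous fun p : E n × E n => divT G X p := by
    have h1 : Continuous fun p : E n × E n => fderiv ℝ X p.1 :=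
      (hXc.continuous_fderiv one_ne_zero).comp continuous_fst
    have h2 : Continuous fun p : E n × E n => (chrL G p.1) := hm.contDiff_chrL.continuous.comp
      continuous_fst
    have h3 : Continuous fun p : E n × E n => X p.1 := hXc.continuous.comp continuous_fst
    have h4 : Continuous fun p : E n × E n => G p.1 := hm.smooth.continuous.comp continuous_fst
    refine Continuous.sub (f := fun p : E n × E n => divg G X p.1) ?_
      (((h4.clm_apply (((h1.clm_apply continuous_snd)).add
        ((h2.clm_apply continuous_snd).clm_apply h3)))).clm_apply continuous_snd)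
    exact continuous_finsetSum _ fun i _ => (PiLp.continuous_apply 2 _ i).comp
      ((h1.clm_apply continuous_const).add ((h2.clm_apply continuous_const).clm_apply h3))
  have hId : Integrable (fun p => divT G X p) D.μ := by
    refine D.integrable_of_supp hm hcc hK fun p hp => ?_
    rw [hT, tgp_eq_zero_left hp, image_eq_zero_of_notMem_tsupport hp]; ring
  calc ∫ p, (tgp G s (phi Γ e z) p + s p.1 * (md n * (1 + e * phi Γ e z p.1) -
        D.h p.1 * fderiv ℝ (phi Γ e z) p.1 p.2)) ∂D.μ
      ≤ ∫ p, (divT G X p - D.h p.1 * G p.1 (X p.1) p.2) ∂D.μ := by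
        refine integral_mono_ae hI (hId.sub hIh) ?_
        filter_upwards [D.unit] with p hp
        rw [hT, hGX]
        nlinarith [mul_le_mul_of_nonneg_left (divT_gradPhi_ge hCH hc z hp) (hs0 p.1)]
    _ = 0 := by rw [integral_sub hId hIh, hfv, sub_self]

theorem fderiv_vfun (hc : Comp Γ e) {u : E n → ℝ} (hu : ContDiff ℝ 1 u)
    (z : E n) {a : ℝ} (ha : 0 < a) (hea : e * a < 1) (y : E n) :
    fderiv ℝ (vfun Γ e z a u) y = (wgt Γ e z a y ^ al n)⁻¹ • fderiv ℝ u y +
      ((wgt Γ e z a y ^ al n)⁻¹ * (al n * u y / psi Γ e z a y)) • fderiv ℝ (phi Γ e z) y := by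
  have hk := kk_pos ha hea
  have hψ := psi_pos hc z ha
  have e1 : vfun Γ e z a u =
      fun x => u x * ((kk e a ^ al n)⁻¹ * psi Γ e z a x ^ al n) := funext fun x => by
    rw [vfun, wgt, Real.div_rpow hk.le (hψ x).le, div_div_eq_mul_div]
    ring
  have d1 : HasFDerivAt (psi Γ e z a) (fderiv ℝ (phi Γ e z) y) y :=
    ((contDiff_phi hc z).differentiable one_ne_zero y).hasFDerivAt.add_const a
  have d2 := (hu.differentiable one_ne_zero y).hasFDerivAt.mul
    ((d1.rpow_const (p := al n) (Or.inl (hψ y).ne')).const_mul (kk e a ^ al n)⁻¹)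
  rw [e1]
  refine d2.fderiv.trans ?_
  rw [wgt, Real.div_rpow hk.le (hψ y).le, inv_div, add_comm]
  simp only [smul_smul]
  have h1 : psi Γ e z a y ^ (al n - 1) = psi Γ e z a y ^ al n / psi Γ e z a y := by
    rw [Real.rpow_sub_one (hψ y).ne']
  congr 2
  · ring
  · rw [h1]; ring

/-- The pointwise identity behind Barta's inequality. -/
theorem barta_point (hn : 4 ≤ n) (hCH : IsCHe G e) (hc : Comp Γ e) (D : Varifold G h₀)
    {u : E n → ℝ} (hu : ContDiff ℝ 1 u) (z : E n) {a : ℝ} (ha : 0 < a) (hea : e * a < 1)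
    (p : E n × E n) :
    cc n * (wgt Γ e z a p.1 ^ (2 * al n) * tgsq G (vfun Γ e z a u) p) +
      md n * (md n - 1) * (wgt Γ e z a p.1 ^ 2 * u p.1 ^ 2) +
      (md n - 1) / md n * (u p.1 ^ 2 * ((h₀ ^ 2 - D.h p.1 ^ 2) +
        (D.h p.1 * psi Γ e z a p.1 - md n * fderiv ℝ (phi Γ e z) p.1 p.2) ^ 2 /
          psi Γ e z a p.1 ^ 2)) =
    (cc n * tgsq G u p + lam n e h₀ * u p.1 ^ 2) +
      (tgp G (fun y => 2 * (md n - 1) * (u y * u y) / psi Γ e z a y) (phi Γ e z) p +
        2 * (md n - 1) * (u p.1 * u p.1) / psi Γ e z a p.1 *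
          (md n * (1 + e * phi Γ e z p.1) - D.h p.1 * fderiv ℝ (phi Γ e z) p.1 p.2)) := by
  have hm := hCH.metric
  obtain ⟨y, N⟩ := p
  have hψ := psi_pos hc z ha y
  have hw := wgt_pos hc z ha hea y
  have hφ := contDiff_phi hc z
  have ds : fderiv ℝ (fun y => 2 * (md n - 1) * (u y * u y) / psi Γ e z a y) y =
      (4 * (md n - 1) * u y / psi Γ e z a y) • fderiv ℝ u y +
        (-(2 * (md n - 1) * u y ^ 2) / psi Γ e z a y ^ 2) • fderiv ℝ (phi Γ e z) y := by
    have du := (hu.differentiable one_ne_zero y).hasFDerivAt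
    have d1 : HasFDerivAt (psi Γ e z a) (fderiv ℝ (phi Γ e z) y) y :=
      (hφ.differentiable one_ne_zero y).hasFDerivAt.add_const a
    have d2 := ((du.mul du).const_mul (2 * (md n - 1))).mul
      ((hasDerivAt_inv hψ.ne').comp_hasFDerivAt y d1)
    simp only [div_eq_mul_inv]
    refine d2.fderiv.trans ?_
    simp only [smul_smul, ← add_smul, Function.comp_apply, Pi.mul_apply]
    rw [add_comm]
    congr 2 <;> ring
  simp only [tgsq, tgp_eq, fderiv_vfun hc hu z ha hea, ds, tg_comb hm, tg_add_left,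
    tg_smul_left]
  rw [tg_phi hm hc z (y, N)]
  have e2 : wgt Γ e z a y ^ (2 * al n) = (wgt Γ e z a y ^ al n) ^ 2 := by
    rw [← Real.rpow_natCast, ← Real.rpow_mul hw.le]; congr 1; push_cast; ring
  have hA : wgt Γ e z a y ^ al n ≠ 0 := (Real.rpow_pos_of_pos hw _).ne'
  have hmd := three_le_md hn
  have hm2 : md n - 2 ≠ 0 := by linarith
  have hm0 : md n ≠ 0 := by linarith
  simp only [e2, wgt, div_pow, kk_sq ha hea, lam, cc, al] at *
  simp only [psi] at *
  field_simp
  ring

/-- Barta's inequality. -/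
theorem barta : BartaStmt := by
  intro n G e Γ h₀ hn hCH hc D u hu hus z a ha hea
  have hm := hCH.metric
  have hψ := psi_pos hc z ha
  have hψc := contDiff_psi hc z a
  set s : E n → ℝ := fun y => 2 * (md n - 1) * (u y * u y) / psi Γ e z a y with hs
  have hsc : ContDiff ℝ 1 s :=
    (contDiff_const.mul (hu.mul hu)).div hψc fun y => (hψ y).ne'
  have hss : HasCompactSupport s := hus.mono' fun y hy => by
    refine subset_tsupport _ ?_
    simp only [Function.mem_support, s] at hy ⊢
    intro h0; exact hy (by simp [h0])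
  have hs0 : ∀ y, 0 ≤ s y := fun y => by
    have := three_le_md hn
    exact div_nonneg (mul_nonneg (by linarith) (mul_self_nonneg _)) (hψ y).le
  obtain ⟨hI, hst⟩ := star hCH hc D z hsc hss hs0
  have hK : IsCompact (tsupport u) := hus
  have hup : Continuous fun p : E n × E n => u p.1 := hu.continuous.comp continuous_fst
  have hwp : Continuous fun p : E n × E n => wgt Γ e z a p.1 :=
    (contDiff_wgt hc z ha).continuous.comp continuous_fst
  have hh : Continuous fun p : E n × E n => D.h p.1 := D.h_cont.comp continuous_fst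
  have hψp : Continuous fun p : E n × E n => psi Γ e z a p.1 :=
    hψc.continuous.comp continuous_fst
  have hσ : Continuous fun p : E n × E n => fderiv ℝ (phi Γ e z) p.1 p.2 :=
    (((contDiff_phi hc z).continuous_fderiv one_ne_zero).comp continuous_fst).clm_apply
      continuous_snd
  have hv : ContDiff ℝ 1 (vfun Γ e z a u) :=
    hu.div ((contDiff_wgt hc z ha).rpow_const_of_ne
      fun y => (wgt_pos hc z ha hea y).ne')
      fun y => (Real.rpow_pos_of_pos (wgt_pos hc z ha hea y) _).ne'
  have i1 : Integrable (fun p => cc n * (wgt Γ e z a p.1 ^ (2 * al n) *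
      tgsq G (vfun Γ e z a u) p)) D.μ := by
    refine (D.integrable_of_supp hm ?_ hK fun p hp => ?_).const_mul _
    · exact (hwp.rpow_const fun p => Or.inl (wgt_pos hc z ha hea p.1).ne').mul
        (continuous_tgp hm hv hv)
    · have : p.1 ∉ tsupport (vfun Γ e z a u) := fun h => hp (closure_mono (fun y hy => by
        simp only [Function.mem_support, vfun] at hy ⊢
        intro h0; exact hy (by simp [h0])) h)
      simp [tgsq, tgp_eq_zero_left this]
  have i2 : Integrable (fun p => md n * (md n - 1) * (wgt Γ e z a p.1 ^ 2 * u p.1 ^ 2)) D.μ := by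
    refine (D.integrable_of_supp hm (by fun_prop) hK fun p hp => ?_).const_mul _
    simp [image_eq_zero_of_notMem_tsupport hp]
  have i3 : Integrable (fun p => (md n - 1) / md n * (u p.1 ^ 2 * ((h₀ ^ 2 - D.h p.1 ^ 2) +
      (D.h p.1 * psi Γ e z a p.1 - md n * fderiv ℝ (phi Γ e z) p.1 p.2) ^ 2 /
        psi Γ e z a p.1 ^ 2))) D.μ := by
    refine (D.integrable_of_supp hm ?_ hK fun p hp => ?_).const_mul _
    · refine (hup.pow 2).mul ((continuous_const.sub (hh.pow 2)).add (Continuous.div ?_ (hψp.pow 2)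
        fun p => pow_ne_zero 2 (hψ p.1).ne'))
      fun_prop
    · simp [image_eq_zero_of_notMem_tsupport hp]
  have iE : Integrable (fun p => cc n * tgsq G u p + lam n e h₀ * u p.1 ^ 2) D.μ := by
    have := continuous_tgp hm hu hu
    refine D.integrable_of_supp hm (by simp only [tgsq]; fun_prop) hK fun p hp => ?_
    simp [tgsq, tgp_eq_zero_left hp, image_eq_zero_of_notMem_tsupport hp]
  have key := barta_point hn hCH hc D hu z ha hea
  have h0 := congrArg (fun F => ∫ p, F p ∂D.μ) (funext key)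
  simp only at h0
  rw [integral_add (i1.fun_add i2) i3, integral_add i1 i2, integral_const_mul, integral_const_mul,
    integral_const_mul, integral_add iE hI] at h0
  simp only [gap, energy]
  linarith

end Vari

end

end Vale.Agent.P219.CH.Full
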