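import Vale.Agent.P219.CH.Full.Variational.Almost

/-!
P219, full inequality: monotonicity of the Poisson integrals on the sphere.
-/

namespace Vale.Agent.P219.CH.Full

open MeasureTheory Filter Topology Set
open scoped ContDiff RealInnerProductSpace

noncomputable section

namespace Vari

variable {n : ℕ} {G : Coeff n} {Γ : Geo G} {e h₀ : ℝ} {D : Varifold G h₀} {u : E n → ℝ}

/-- The denominator of the Poisson kernel. -/
def den (s t : ℝ) : ℝ := 1 + s ^ 2 - 2 * s * t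

theorem den_ge {L s t : ℝ} (hL : L < 1) (hs : |s| ≤ L) (ht : |t| ≤ 1) :
    (1 - L) ^ 2 ≤ den s t := by
  have h1 : |s * t| ≤ |s| := by rw [abs_mul]; exact mul_le_of_le_one_right (abs_nonneg _) ht
  have h2 : (1 - |s|) ^ 2 ≤ den s t := by
    rw [den, sub_sq, sq_abs]
    linarith [le_abs_self (s * t)]
  exact (pow_le_pow_left₀ (by linarith) (by linarith) 2).trans h2

theorem hasDerivAt_den (s t : ℝ) : HasDerivAt (den s) (-(2 * s)) t := by
  show HasDerivAt (fun x => 1 + s ^ 2 - 2 * s * x) (-(2 * s)) t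
  simpa using ((hasDerivAt_id' t).const_mul (2 * s)).const_sub (1 + s ^ 2)

theorem hasDerivAt_div_den {s t : ℝ} (c : ℝ) (k : ℕ) (h : den s t ≠ 0) :
    HasDerivAt (fun x => c / den s x ^ (k + 1))
      (c * (2 * s * (k + 1)) / den s t ^ (k + 2)) t := by
  have h1 := (((hasDerivAt_den s t).pow (k + 1)).fun_inv (pow_ne_zero _ h)).const_mul c
  simp only [div_eq_mul_inv]
  refine h1.congr_deriv ?_
  simp only [Pi.pow_apply, Nat.add_sub_cancel]
  push_cast
  field_simp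
  ring

theorem hasDerivAt_kernel {s t : ℝ} (k : ℕ) (h : den s t ≠ 0) :
    HasDerivAt (fun r => ((1 - r ^ 2) / den r t) ^ (k + 1))
      (-2 * (1 - s ^ 2) ^ k * (((1 - t ^ 2) * (2 * s * (k + 1))) / den s t ^ (k + 2) -
        (k + 1) * t / den s t ^ (k + 1))) s := by
  have h1 : HasDerivAt (fun r => den r t) (2 * s - 2 * t) s := by
    show HasDerivAt (fun r => 1 + r ^ 2 - 2 * r * t) (2 * s - 2 * t) s
    refine ((((hasDerivAt_id' s).fun_pow 2).const_add 1).fun_sub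
      (((hasDerivAt_id' s).const_mul 2).mul_const t)).congr_deriv ?_
    norm_num
  have h2 := ((((hasDerivAt_id' s).fun_pow 2).const_sub 1).fun_div h1 h).fun_pow (k + 1)
  refine h2.congr_deriv ?_
  simp only [Nat.add_sub_cancel, div_pow]
  push_cast
  field_simp
  simp only [den]
  ring

/-- `∫ u² |∇ (φ ∘ t)|²` for a bounded derivative. -/
theorem tgsq_comp_bound (hG : IsMetric G) (hu : Adm D.μ u) {t : E n → ℝ} (ht : ContDiff ℝ 1 t)
    {φ φ' : ℝ → ℝ} (hd : ∀ y, HasDerivAt φ (φ' (t y)) (t y)) (hφ : ContDiff ℝ 1 (fun y => φ (t y)))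
    {R : ℝ} (hR : ∀ y, |φ' (t y)| ≤ R) :
    ∫ p, u p.1 ^ 2 * tgsq G (fun y => φ (t y)) p ∂D.μ ≤
      R ^ 2 * ∫ p, u p.1 ^ 2 * tgsq G t p ∂D.μ := by
  have itg : ∀ {f : E n → ℝ}, ContDiff ℝ 1 f →
      Integrable (fun p => u p.1 ^ 2 * tgsq G f p) D.μ := fun hf =>
    D.integrable_of_supp hG (((hu.c1.continuous.comp continuous_fst).pow 2).mul
      (continuous_tgsq hG hf)) hu.supp fun p hp => by simp [image_eq_zero_of_notMem_tsupport hp]
  rw [← integral_const_mul]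
  refine integral_mono_ae (itg hφ) ((itg ht).const_mul _) ?_
  filter_upwards [D.unit] with p hp
  rw [tgsq_comp hG (hd p.1).differentiableAt (ht.differentiable one_ne_zero p.1), (hd p.1).deriv]
  have h1 : φ' (t p.1) ^ 2 ≤ R ^ 2 :=
    sq_le_sq' (abs_le.1 (hR _)).1 (abs_le.1 (hR _)).2
  have := mul_le_mul_of_nonneg_left (mul_le_mul_of_nonneg_right h1 (tgsq_nonneg hG t hp))
    (sq_nonneg (u p.1))
  linarith

/-- The derivative of the Poisson integrals is almost nonpositive. -/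
theorem deriv_le (hs : SphereStmt) (hn : 4 ≤ n) (hCH : IsCHe G e) (hc : Comp Γ e)
    (hl : 0 < lam n e h₀) (hY : 0 < Yinf D.μ G e h₀) {k : ℕ} (hk : n = k + 2) {L : ℝ}
    (hL : L < 1) {δ : ℝ} (hδ : 0 < δ) :
    ∃ η : ℝ, 0 < η ∧ ∀ u z a, Adm D.μ u → energy D.μ G e h₀ u ≤ Yinf D.μ G e h₀ + η →
      Balanced Γ e D.μ u z a → ∀ p₀, SphUnit G z p₀ → ∀ s : ℝ, 0 ≤ s → s ≤ L →
        -2 * (1 - s ^ 2) ^ k * (mom D.μ u fun y =>
          ((1 - sph Γ e z a p₀ y ^ 2) * (2 * s * (k + 1))) / den s (sph Γ e z a p₀ y) ^ (k + 2) -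
            (k + 1) * sph Γ e z a p₀ y / den s (sph Γ e z a p₀ y) ^ (k + 1)) ≤ δ := by
  have hm := hCH.metric
  have hmd := three_le_md hn
  have hmk : md n = k + 1 := by rw [md, hk]; push_cast; ring
  set Y := Yinf D.μ G e h₀ with hYdef
  set d := (1 - L) ^ 2 with hd
  have hd0 : 0 < d := pow_pos (by linarith) 2
  set R₁ := 2 * ((k : ℝ) + 1) / d with hR₁
  have hR₁0 : 0 < R₁ := by positivity
  set R₂ := (2 * R₁ + 4 * ((k : ℝ) + 1) * ((k : ℝ) + 2) / d ^ 2) / R₁ with hR₂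
  set Bt := (Y + 1) / (md n * (md n - 1)) with hBt
  have hmm : (0 : ℝ) < md n * (md n - 1) := mul_pos (by linarith) (by linarith)
  set τ₁ := δ * Y * d ^ (k + 1) / (2 * (R₁ + md n)) with hτ₁
  have hBt0 : 0 < Bt := div_pos (by linarith) hmm
  obtain ⟨η, hη, hA⟩ := almost hs n G e Γ h₀ hn hCH hc D hl τ₁
    ((R₁ ^ 2 + R₂ ^ 2) * Bt) (by positivity) (by positivity)
  refine ⟨min η 1, lt_min hη one_pos, fun u z a hu hE hb p₀ hp₀ s hs0 hsL => ?_⟩
  obtain ⟨-, -, hζs⟩ := hA u z a hu (hE.trans (by linarith [min_le_left η 1])) hb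
  obtain ⟨hsC, -, -, -, hsle, hstg, -, -⟩ := hs n G e Γ (by omega) hCH hc z a hb.pos hb.small
  set t := sph Γ e z a p₀ with ht
  have htC : ContDiff ℝ 1 t := hsC p₀
  have ht1 : ∀ y, |t y| ≤ 1 := hsle p₀ hp₀
  have hden : ∀ y, d ≤ den s (t y) := fun y => den_ge hL (by rwa [abs_of_nonneg hs0]) (ht1 y)
  have hden0 : ∀ y, den s (t y) ≠ 0 := fun y => (hd0.trans_le (hden y)).ne'
  have hdC : ContDiff ℝ 1 fun y => den s (t y) := by unfold den; fun_prop
  -- the test functions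
  set c := d ^ (k + 1) with hc'
  set f : ℝ → ℝ := fun x => c / den s x ^ (k + 1) with hf
  set b : ℝ → ℝ := fun x => c * (2 * s * (k + 1)) / den s x ^ (k + 2) with hb'
  set r : ℝ → ℝ := fun x => (1 - x ^ 2) * b x / R₁ with hr
  have hfd : ∀ y, HasDerivAt f (b (t y)) (t y) := fun y => hasDerivAt_div_den c k (hden0 y)
  have hrd : ∀ y, HasDerivAt r ((-2 * t y * b (t y) + (1 - t y ^ 2) *
      (c * (2 * s * (k + 1)) * (2 * s * (k + 2)) / den s (t y) ^ (k + 3))) / R₁) (t y) := by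
    intro y
    have h2 : HasDerivAt b (c * (2 * s * (k + 1)) * (2 * s * (k + 2)) / den s (t y) ^ (k + 3))
        (t y) := by
      refine (hasDerivAt_div_den (c * (2 * s * (k + 1))) (k + 1) (hden0 y)).congr_deriv ?_
      push_cast; ring
    refine (((((hasDerivAt_id' (t y)).fun_pow 2).const_sub 1).fun_mul h2).div_const R₁).congr_deriv ?_
    norm_num
  have hfC : ContDiff ℝ 1 fun y => f (t y) :=
    contDiff_const.div (hdC.pow _) fun y => pow_ne_zero _ (hden0 y)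
  have hrC : ContDiff ℝ 1 fun y => r (t y) :=
    ((contDiff_const.sub (htC.pow 2)).mul (contDiff_const.div (hdC.pow _)
      fun y => pow_ne_zero _ (hden0 y))).div_const _
  have hq1 : ∀ (j : ℕ) y, 0 ≤ c / den s (t y) ^ (k + 1 + j) ∧
      c / den s (t y) ^ (k + 1 + j) ≤ 1 / d ^ j := fun j y => by
    refine ⟨div_nonneg (by positivity) (pow_nonneg (hd0.le.trans (hden y)) _), ?_⟩
    calc c / den s (t y) ^ (k + 1 + j) ≤ c / d ^ (k + 1 + j) :=
          div_le_div_of_nonneg_left (by positivity) (by positivity)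
            (pow_le_pow_left₀ hd0.le (hden y) _)
      _ = 1 / d ^ j := by rw [hc', pow_add d (k + 1) j, div_mul_eq_div_div, div_self (by positivity)]
  have hb1 : ∀ y, 0 ≤ b (t y) ∧ b (t y) ≤ R₁ := fun y => by
    obtain ⟨q0, q1⟩ := hq1 1 y
    have e1 : b (t y) = 2 * s * (k + 1) * (c / den s (t y) ^ (k + 1 + 1)) := by
      simp only [b]; ring
    rw [e1]
    refine ⟨by positivity, ?_⟩
    calc _ ≤ 2 * 1 * ((k : ℝ) + 1) * (1 / d ^ 1) := by gcongr; linarith
      _ = R₁ := by rw [hR₁]; ring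
  have ht2 : ∀ y, 0 ≤ 1 - t y ^ 2 ∧ 1 - t y ^ 2 ≤ 1 := fun y =>
    ⟨sub_nonneg.2 ((sq_le_one_iff_abs_le_one _).2 (ht1 y)), sub_le_self _ (sq_nonneg _)⟩
  have hf1 : ∀ y, |f (t y)| ≤ 1 := fun y => by
    obtain ⟨q0, q1⟩ := hq1 0 y
    rw [abs_le]; simp only [f]
    constructor <;> simp at q0 q1 ⊢ <;> linarith
  have hr1 : ∀ y, |r (t y)| ≤ 1 := fun y => by
    obtain ⟨t0, t1⟩ := ht2 y
    obtain ⟨b0, b1⟩ := hb1 y
    simp only [r]
    rw [abs_of_nonneg (div_nonneg (mul_nonneg t0 b0) hR₁0.le), div_le_one hR₁0]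
    exact (mul_le_of_le_one_left b0 t1).trans b1
  have hbB : ∀ y, |(-2 * t y * b (t y) + (1 - t y ^ 2) *
      (c * (2 * s * (k + 1)) * (2 * s * (k + 2)) / den s (t y) ^ (k + 3))) / R₁| ≤ R₂ := fun y => by
    obtain ⟨t0, t1⟩ := ht2 y
    obtain ⟨b0, b1⟩ := hb1 y
    obtain ⟨q0, q1⟩ := hq1 2 y
    rw [abs_div, abs_of_pos hR₁0, hR₂]
    refine div_le_div_of_nonneg_right ((abs_add_le _ _).trans (add_le_add ?_ ?_)) hR₁0.le
    · rw [abs_mul, abs_mul, abs_of_nonneg b0]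
      calc |(-2 : ℝ)| * |t y| * b (t y) ≤ |(-2 : ℝ)| * 1 * R₁ := by gcongr; exact ht1 y
        _ = 2 * R₁ := by norm_num
    · rw [show c * (2 * s * ((k : ℝ) + 1)) * (2 * s * (k + 2)) / den s (t y) ^ (k + 3) =
        4 * ((k : ℝ) + 1) * (k + 2) * (s * s) * (c / den s (t y) ^ (k + 1 + 2)) by ring,
        abs_of_nonneg (by positivity)]
      have hss : s * s ≤ 1 := mul_le_one₀ (by linarith) hs0 (by linarith)
      calc _ ≤ 1 * (4 * ((k : ℝ) + 1) * (k + 2) * 1 * (1 / d ^ 2)) := by gcongr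
        _ = _ := by ring
  have htB : ∫ p, u p.1 ^ 2 * tgsq G t p ∂D.μ ≤ Bt := by
    obtain ⟨hg, hw⟩ := barta_w (D := D) hn hCH hc hu.c1 hu.supp z hb.pos hb.small
    have i0 : Integrable (fun p => wgt Γ e z a p.1 ^ 2 * u p.1 ^ 2) D.μ := by
      simpa using integrable_wint (D := D) hm hc hu.c1.continuous hu.supp
        (continuous_const : Continuous fun _ : E n => (1 : ℝ)) z hb.pos
    refine le_trans (integral_mono_ae (D.integrable_of_supp hm
      (((hu.c1.continuous.comp continuous_fst).pow 2).mul (continuous_tgsq hm htC)) hu.supp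
      fun p hp => by simp [image_eq_zero_of_notMem_tsupport hp]) i0 ?_) ?_
    · filter_upwards [D.unit] with p hp
      have := mul_le_mul_of_nonneg_left ((hstg p₀ hp₀ p hp).trans
        (mul_le_of_le_one_right (sq_nonneg _) (ht2 p.1).2)) (sq_nonneg (u p.1))
      linarith
    · rw [hBt, le_div_iff₀ hmm, mul_comm]
      have := mul_nonneg (cc_pos hn).le hg
      linarith [min_le_right η 1]
  obtain ⟨-, hA2⟩ := hζs _ hfC hf1 (by
    refine (tgsq_comp_bound hm hu htC hfd hfC (R := R₁) fun y => ?_).trans ?_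
    · rw [abs_of_nonneg (hb1 y).1]; exact (hb1 y).2
    · exact mul_le_mul (le_add_of_nonneg_right (sq_nonneg _)) htB (integral_nonneg_of_ae
        (by filter_upwards [D.unit] with p hp
            exact mul_nonneg (sq_nonneg _) (tgsq_nonneg hm t hp))) (by positivity))
  obtain ⟨hA1, -⟩ := hζs _ hrC hr1 (by
    refine (tgsq_comp_bound hm hu htC (φ' := fun x => (-2 * x * b x + (1 - x ^ 2) *
      (c * (2 * s * (k + 1)) * (2 * s * (k + 2)) / den s x ^ (k + 3))) / R₁) hrd hrC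
      (R := R₂) hbB).trans ?_
    exact mul_le_mul (le_add_of_nonneg_left (sq_nonneg _)) htB (integral_nonneg_of_ae
      (by filter_upwards [D.unit] with p hp
          exact mul_nonneg (sq_nonneg _) (tgsq_nonneg hm t hp))) (by positivity))
  have hA2' := hA2 p₀ hp₀
  rw [← ht] at hA2'
  set I := ∫ p, u p.1 ^ 2 * tgp G t (fun y => f (t y)) p ∂D.μ
  set Wr := ∫ p, wgt Γ e z a p.1 ^ 2 * u p.1 ^ 2 * r (t p.1) ∂D.μ
  set Mr := mom D.μ u fun y => r (t y)
  set Mt := mom D.μ u fun y => t y * f (t y)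
  change |Y * Mr - md n * (md n - 1) * Wr| ≤ τ₁ at hA1
  change |(md n - 1) * I - Y * Mt| ≤ τ₁ at hA2'
  have hIW : I ≤ R₁ * Wr := by
    rw [← integral_const_mul]
    refine integral_mono_ae (D.integrable_of_supp hm
      (((hu.c1.continuous.comp continuous_fst).pow 2).mul (continuous_tgp hm htC hfC)) hu.supp
      fun p hp => by simp [image_eq_zero_of_notMem_tsupport hp])
      ((integrable_wint hm hc hu.c1.continuous hu.supp hrC.continuous z hb.pos).const_mul _) ?_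
    filter_upwards [D.unit] with p hp
    rw [tgp_comm hm, tgp_comp_left (hfd p.1).differentiableAt (htC.differentiable one_ne_zero p.1),
      (hfd p.1).deriv]
    have := mul_le_mul_of_nonneg_left (hstg p₀ hp₀ p hp)
      (mul_nonneg (sq_nonneg (u p.1)) (hb1 p.1).1)
    rw [show R₁ * (wgt Γ e z a p.1 ^ 2 * u p.1 ^ 2 * r (t p.1)) =
      u p.1 ^ 2 * b (t p.1) * (wgt Γ e z a p.1 ^ 2 * (1 - t p.1 ^ 2)) by
        simp only [r]; field_simp]
    simp only [← ht, tgsq] at this ⊢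
    linarith
  have key : (mom D.μ u fun y => ((1 - t y ^ 2) * (2 * s * (k + 1))) / den s (t y) ^ (k + 2) -
      (k + 1) * t y / den s (t y) ^ (k + 1)) = (R₁ * Mr - md n * Mt) / c := by
    rw [eq_div_iff (by positivity : c ≠ 0), hmk]
    simp only [Mr, Mt, mom]
    rw [← integral_mul_const, ← integral_const_mul, ← integral_const_mul, ← integral_sub
      ((integrable_mom hn hm hu hrC.continuous).const_mul _)
      ((integrable_mom hn hm hu (f := fun y => t y * f (t y))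
        (htC.continuous.mul hfC.continuous)).const_mul _)]
    refine integral_congr_ae (Eventually.of_forall fun p => ?_)
    simp only [r, f, b]
    field_simp
  rw [key]
  have h1 : -(τ₁ * (R₁ + md n)) / Y ≤ R₁ * Mr - md n * Mt := by
    rw [div_le_iff₀ hY]
    have := mul_le_mul_of_nonneg_left hIW
      (mul_nonneg (by linarith : 0 ≤ md n) (by linarith : 0 ≤ md n - 1))
    have := mul_le_mul_of_nonneg_left (abs_le.1 hA2').1 (by linarith : 0 ≤ md n)
    have := mul_le_mul_of_nonneg_left (abs_le.1 hA1).1 hR₁0.le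
    linarith
  have h2 : τ₁ * (R₁ + md n) / Y = δ * c / 2 := by rw [hτ₁, hc']; field_simp
  rw [neg_div, h2] at h1
  have h3 : -(δ / 2) ≤ (R₁ * Mr - md n * Mt) / c := by
    rw [le_div_iff₀ (by positivity)]; linarith
  have p0 : (0 : ℝ) ≤ 1 - s ^ 2 := sub_nonneg.2 (pow_le_one₀ hs0 (by linarith))
  have hsk : 0 ≤ (1 - s ^ 2) ^ k ∧ (1 - s ^ 2) ^ k ≤ 1 :=
    ⟨pow_nonneg p0 _, pow_le_one₀ p0 (sub_le_self _ (sq_nonneg _))⟩
  nlinarith [mul_le_mul_of_nonneg_left h3 hsk.1, mul_le_mul_of_nonneg_right hsk.2 hδ.le]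

/-- A bound for the derivative of the Poisson kernel. -/
theorem abs_kernel_deriv_le (k : ℕ) {L s t : ℝ} (hL1 : L < 1) (hs : |s| ≤ L) (ht : |t| ≤ 1) :
    |-2 * (1 - s ^ 2) ^ k * (((1 - t ^ 2) * (2 * s * (k + 1))) / den s t ^ (k + 2) -
        (k + 1) * t / den s t ^ (k + 1))| ≤
      2 * (2 * ((k : ℝ) + 1) / ((1 - L) ^ 2) ^ (k + 2) + ((k : ℝ) + 1) / ((1 - L) ^ 2) ^ (k + 1)) := by
  have hd0 : 0 < (1 - L) ^ 2 := pow_pos (by linarith) 2
  have hd := den_ge hL1 hs ht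
  have hd' : 0 ≤ den s t := hd0.le.trans hd
  have hs1 : |s| ≤ 1 := hs.trans hL1.le
  have q0 : 0 ≤ 1 - s ^ 2 := sub_nonneg.2 ((sq_le_one_iff_abs_le_one _).2 hs1)
  have t0 : 0 ≤ 1 - t ^ 2 := sub_nonneg.2 ((sq_le_one_iff_abs_le_one _).2 ht)
  have k0 : (0 : ℝ) ≤ (k : ℝ) + 1 := by positivity
  simp only [abs_mul, abs_pow, abs_neg, abs_two]
  refine mul_le_mul (mul_le_of_le_one_right zero_le_two (pow_le_one₀ (abs_nonneg _) ?_))
    ((abs_sub _ _).trans (add_le_add ?_ ?_)) (abs_nonneg _) zero_le_two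
  · rw [abs_of_nonneg q0]; exact sub_le_self _ (sq_nonneg _)
  · rw [abs_div, abs_pow, abs_of_nonneg hd', abs_mul, abs_of_nonneg t0, abs_mul, abs_mul, abs_two,
      abs_of_nonneg k0]
    refine div_le_div₀ (mul_nonneg zero_le_two k0) ?_ (pow_pos hd0 _)
      (pow_le_pow_left₀ hd0.le hd _)
    calc (1 - t ^ 2) * (2 * |s| * (k + 1)) ≤ 1 * (2 * 1 * ((k : ℝ) + 1)) := by
          gcongr; exact sub_le_self _ (sq_nonneg _)
      _ = _ := by ring
  · rw [abs_div, abs_pow, abs_of_nonneg hd', abs_mul, abs_of_nonneg k0]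
    exact div_le_div₀ k0 (mul_le_of_le_one_right k0 ht) (pow_pos hd0 _)
      (pow_le_pow_left₀ hd0.le hd _)

/-- The derivative of the Poisson integral, for a fixed coordinate. -/
theorem hasDerivAt_mom_kernel (hn : 4 ≤ n) (hm : IsMetric G) (hu : Adm D.μ u) (k : ℕ)
    {t : E n → ℝ} (htc : Continuous t) (ht1 : ∀ y, |t y| ≤ 1) {L s : ℝ} (hL1 : L < 1)
    (hs : |s| < L) :
    HasDerivAt (fun r => mom D.μ u fun y => ((1 - r ^ 2) / den r (t y)) ^ (k + 1))
      (-2 * (1 - s ^ 2) ^ k * mom D.μ u fun y =>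
        ((1 - t y ^ 2) * (2 * s * (k + 1))) / den s (t y) ^ (k + 2) -
          (k + 1) * t y / den s (t y) ^ (k + 1)) s := by
  have hd0 : 0 < (1 - L) ^ 2 := pow_pos (by linarith) 2
  have hden : ∀ s, |s| ≤ L → ∀ y, den s (t y) ≠ 0 := fun s hs y =>
    (hd0.trans_le (den_ge hL1 hs (ht1 y))).ne'
  have hcden : ∀ s, Continuous fun y => den s (t y) := fun s => by unfold den; fun_prop
  have hFc : ∀ s, |s| ≤ L → Continuous fun y => ((1 - s ^ 2) / den s (t y)) ^ (k + 1) :=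
    fun s hs => (continuous_const.div (hcden s) (hden s hs)).pow _
  have hU : Ioo (-L) L ∈ 𝓝 s := Ioo_mem_nhds (abs_lt.1 hs).1 (abs_lt.1 hs).2
  have hF'c : Continuous fun y => -2 * (1 - s ^ 2) ^ k *
      (((1 - t y ^ 2) * (2 * s * (k + 1))) / den s (t y) ^ (k + 2) -
        (k + 1) * t y / den s (t y) ^ (k + 1)) :=
    continuous_const.mul ((((continuous_const.sub (htc.pow 2)).mul continuous_const).div
      ((hcden s).pow _) fun y => pow_ne_zero _ (hden s hs.le y)).sub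
      ((continuous_const.mul htc).div ((hcden s).pow _) fun y => pow_ne_zero _ (hden s hs.le y)))
  set B := 2 * (2 * ((k : ℝ) + 1) / ((1 - L) ^ 2) ^ (k + 2) + ((k : ℝ) + 1) / ((1 - L) ^ 2) ^ (k + 1))
  have h := (hasDerivAt_integral_of_dominated_loc_of_deriv_le (μ := D.μ)
    (F := fun r p => ((1 - r ^ 2) / den r (t p.1)) ^ (k + 1) * u p.1 ^ qe n)
    (F' := fun r p => -2 * (1 - r ^ 2) ^ k *
      (((1 - t p.1 ^ 2) * (2 * r * (k + 1))) / den r (t p.1) ^ (k + 2) -
        (k + 1) * t p.1 / den r (t p.1) ^ (k + 1)) * u p.1 ^ qe n)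
    (bound := fun p => B * u p.1 ^ qe n) hU
    (by filter_upwards [hU] with r hr
        exact (integrable_mom hn hm hu (hFc r (abs_le.2 ⟨hr.1.le, hr.2.le⟩))).aestronglyMeasurable)
    (integrable_mom hn hm hu (hFc s hs.le))
    (integrable_mom hn hm hu hF'c).aestronglyMeasurable
    (Eventually.of_forall fun p r hr => by
      rw [norm_mul, Real.norm_eq_abs, Real.norm_eq_abs,
        abs_of_nonneg (Real.rpow_nonneg (hu.nonneg _) _)]
      exact mul_le_mul_of_nonneg_right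
        (abs_kernel_deriv_le k hL1 (abs_le.2 ⟨hr.1.le, hr.2.le⟩) (ht1 _))
        (Real.rpow_nonneg (hu.nonneg _) _))
    ((integrable_pow hn hm hu).const_mul _)
    (Eventually.of_forall fun p r hr => (hasDerivAt_kernel k
      (hden r (abs_le.2 ⟨hr.1.le, hr.2.le⟩) p.1)).mul_const _)).2
  refine h.congr_deriv ?_
  rw [mom, ← integral_const_mul]
  exact integral_congr_ae (Eventually.of_forall fun p => by ring)

/-- Monotonicity on the sphere. -/
theorem poisson (hs : SphereStmt) : PoissonStmt := by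
  intro n G e Γ h₀ hn hCH hc D hl hY τ l hτ hl0 hl1
  obtain ⟨k, hk⟩ : ∃ k, n = k + 2 := ⟨n - 2, by omega⟩
  obtain ⟨η, hη, hD⟩ := deriv_le (D := D) hs hn hCH hc hl hY hk hl1 hτ
  refine ⟨η, hη, fun u z a hu hE hb p₀ hp₀ => ?_⟩
  have hm := hCH.metric
  obtain ⟨hsC, -, -, -, hsle, -, -, -⟩ := hs n G e Γ (by omega) hCH hc z a hb.pos hb.small
  have hd1 := hD u z a hu hE hb p₀ hp₀
  generalize hgt : sph Γ e z a p₀ = t at hd1
  have ht1 : ∀ y, |t y| ≤ 1 := hgt ▸ hsle p₀ hp₀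
  have htc : Continuous t := hgt ▸ (hsC p₀).continuous
  have hdd : ∀ s, 0 ≤ s → s ≤ l →
      HasDerivAt (fun r => mom D.μ u fun y => ((1 - r ^ 2) / den r (t y)) ^ (k + 1))
        (-2 * (1 - s ^ 2) ^ k * mom D.μ u fun y =>
          ((1 - t y ^ 2) * (2 * s * (k + 1))) / den s (t y) ^ (k + 2) -
            (k + 1) * t y / den s (t y) ^ (k + 1)) s := fun s hs0 hsl =>
    hasDerivAt_mom_kernel hn hm hu k htc ht1 (L := (1 + l) / 2) (by linarith)
      (by rw [abs_of_nonneg hs0]; linarith)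
  have h := (convex_Icc (0 : ℝ) l).image_sub_le_mul_sub_of_deriv_le
    (f := fun r => mom D.μ u fun y => ((1 - r ^ 2) / den r (t y)) ^ (k + 1))
    (fun s hs => (hdd s hs.1 hs.2).continuousAt.continuousWithinAt)
    (fun s hs => by
      rw [interior_Icc] at hs
      exact (hdd s hs.1.le hs.2.le).differentiableAt.differentiableWithinAt)
    (C := τ) (fun s hs => by
      rw [interior_Icc] at hs
      rw [(hdd s hs.1.le hs.2.le).deriv]
      exact hd1 s hs.1.le hs.2.le) 0 (left_mem_Icc.2 hl0) l (right_mem_Icc.2 hl0) hl0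
  have h0 : (mom D.μ u fun y => ((1 - (0 : ℝ) ^ 2) / den 0 (t y)) ^ (k + 1)) = 1 := by
    simp [mom, den, hu.norm]
  simp only [h0] at h
  have hτl : τ * (l - 0) ≤ τ := mul_le_of_le_one_right hτ.le (by linarith)
  rw [show n - 1 = k + 1 by omega]
  change (mom D.μ u fun y => ((1 - l ^ 2) / den l (t y)) ^ (k + 1)) ≤ 1 + τ
  linarith

end Vari

end

end Vale.Agent.P219.CH.Full
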