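import Mathlib

/-!
P219, full inequality: expansions of powers near one.
-/

namespace Vale.Agent.P219.CH.Full.Vari

open Real

/-- Taylor expansion of the logarithm to order two, from below. -/
theorem log_one_add_ge {x : ℝ} (hx : |x| ≤ 1 / 2) :
    x - x ^ 2 / 2 - 2 * |x| ^ 3 ≤ Real.log (1 + x) := by
  have h := Real.abs_log_sub_add_sum_range_le (x := -x) (by rw [abs_neg]; linarith) 2
  simp only [Finset.sum_range_succ, Finset.sum_range_zero, abs_neg, sub_neg_eq_add] at h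
  norm_num at h
  have h2 : |x| ^ 3 / (1 - |x|) ≤ 2 * |x| ^ 3 := by
    rw [div_le_iff₀ (by linarith)]
    nlinarith [pow_nonneg (abs_nonneg x) 3]
  have h3 := (abs_le.1 (h.trans h2)).1
  linarith

/-- Taylor expansion of the exponential to order two, from below. -/
theorem exp_ge {y : ℝ} (hy : |y| ≤ 1) : 1 + y + y ^ 2 / 2 - |y| ^ 3 ≤ Real.exp y := by
  have h := Real.exp_bound hy (n := 3) (by norm_num)
  simp [Finset.sum_range_succ] at h
  norm_num [Nat.factorial] at h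
  nlinarith [(abs_le.1 h).1, pow_nonneg (abs_nonneg y) 3]

/-- `(1 + x)^q` to order two, from below. -/
theorem one_add_rpow_ge (q : ℝ) (hq : 2 ≤ q) : ∃ C δ : ℝ, 0 ≤ C ∧ 0 < δ ∧ δ ≤ 1 / 2 ∧
    ∀ x, |x| ≤ δ → 1 + q * x + q * (q - 1) / 2 * x ^ 2 - C * |x| ^ 3 ≤ (1 + x) ^ q := by
  refine ⟨8 * q ^ 3 + 2 * q + 2 * q ^ 2, 1 / (4 * q), by positivity, by positivity, ?_, fun x hx => ?_⟩
  · rw [div_le_iff₀ (by positivity)]; linarith
  have hq0 : 0 < q := by linarith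
  rw [le_div_iff₀ (by positivity)] at hx
  have hx2 : |x| ≤ 1 / 2 := by nlinarith [abs_nonneg x]
  have hl := log_one_add_ge hx2
  have hlu : Real.log (1 + x) ≤ x := by
    have := Real.log_le_sub_one_of_pos (x := 1 + x) (by linarith [(abs_le.1 hx2).1])
    linarith
  set y := q * Real.log (1 + x) with hy
  have hx1 : (1 : ℝ) + x > 0 := by linarith [(abs_le.1 hx2).1]
  rw [Real.rpow_def_of_pos hx1, mul_comm (Real.log (1 + x)) q, ← hy]
  have habs : |Real.log (1 + x)| ≤ 2 * |x| := by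
    rw [abs_le]
    have : x ^ 2 = |x| ^ 2 := (sq_abs x).symm
    constructor
    · nlinarith [abs_nonneg x, neg_abs_le x]
    · linarith [le_abs_self x, abs_nonneg x]
  have hy1 : |y| ≤ 1 := by
    rw [hy, abs_mul, abs_of_pos hq0]; nlinarith
  refine le_trans ?_ (exp_ge hy1)
  have hy3 : |y| ^ 3 ≤ 8 * q ^ 3 * |x| ^ 3 := by
    rw [hy, abs_mul, abs_of_pos hq0, mul_pow]
    nlinarith [mul_le_mul_of_nonneg_left (pow_le_pow_left₀ (abs_nonneg _) habs 3) (pow_nonneg hq0.le 3)]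
  have hd : |y ^ 2 / 2 - q ^ 2 * x ^ 2 / 2| ≤ 2 * q ^ 2 * |x| ^ 3 := by
    have e : y ^ 2 / 2 - q ^ 2 * x ^ 2 / 2 =
        q ^ 2 / 2 * ((Real.log (1 + x) - x) * (Real.log (1 + x) + x)) := by rw [hy]; ring
    have h1 : |Real.log (1 + x) - x| ≤ 4 / 3 * |x| ^ 2 := by
      rw [abs_le]
      have : x ^ 2 = |x| ^ 2 := (sq_abs x).symm
      constructor <;> nlinarith [abs_nonneg x]
    have h2 : |Real.log (1 + x) + x| ≤ 3 * |x| :=
      (abs_add_le _ _).trans (by linarith)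
    rw [e, abs_mul, abs_of_nonneg (by positivity : 0 ≤ q ^ 2 / 2), abs_mul]
    calc q ^ 2 / 2 * (|Real.log (1 + x) - x| * |Real.log (1 + x) + x|)
        ≤ q ^ 2 / 2 * (4 / 3 * |x| ^ 2 * (3 * |x|)) := by gcongr
      _ = 2 * q ^ 2 * |x| ^ 3 := by ring
  have hq' : q * (x - x ^ 2 / 2 - 2 * |x| ^ 3) ≤ y := mul_le_mul_of_nonneg_left hl hq0.le
  linarith [(abs_le.1 hd).1]

/-- `(1 + x)^p`, `p ≤ 1`, to order one, from below. -/
theorem one_add_rpow_ge_of_le_one {p x : ℝ} (hp0 : 0 ≤ p) (hp1 : p ≤ 1) (hx : |x| ≤ 1 / 2) :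
    1 + p * x - x ^ 2 ≤ (1 + x) ^ p := by
  have hx1 : (0 : ℝ) < 1 + x := by linarith [(abs_le.1 hx).1]
  have h := _root_.rpow_one_add_le_one_add_mul_self (s := x) (by linarith) (p := 1 - p)
    (by linarith) (by linarith)
  have e : (1 + x) ^ p * (1 + x) ^ (1 - p) = 1 + x := by
    rw [← Real.rpow_add hx1]; simp
  have hr : 0 < 1 + (1 - p) * x := by nlinarith [(abs_le.1 hx).1]
  have h2 : 1 + x ≤ (1 + x) ^ p * (1 + (1 - p) * x) := by
    calc 1 + x = (1 + x) ^ p * (1 + x) ^ (1 - p) := e.symm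
      _ ≤ _ := mul_le_mul_of_nonneg_left h (Real.rpow_nonneg hx1.le _)
  have h3 : (1 + p * x - x ^ 2) * (1 + (1 - p) * x) ≤ 1 + x := by
    nlinarith [mul_nonneg (sq_nonneg x) (show 0 ≤ 1 - (1 - p) * p + (1 - p) * x by
      nlinarith [(abs_le.1 hx).1, mul_nonneg hp0 (sub_nonneg.2 hp1), sq_nonneg (p - 1 / 2)])]
  exact le_of_mul_le_mul_right (h3.trans h2) hr

/-- An error term `A / ε^k + K ε` can be made small. -/
theorem exists_param {K ε₀ τ : ℝ} (hK : 0 ≤ K) (hε : 0 < ε₀) (hτ : 0 < τ) :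
    ∃ ε, 0 < ε ∧ ε ≤ ε₀ ∧ K * ε ≤ τ := by
  refine ⟨min ε₀ (τ / (K + 1)), lt_min hε (by positivity), min_le_left _ _, ?_⟩
  calc K * min ε₀ (τ / (K + 1)) ≤ (K + 1) * (τ / (K + 1)) :=
        mul_le_mul (by linarith) (min_le_right _ _) (le_min hε.le (by positivity)) (by linarith)
    _ = τ := by field_simp

end Vale.Agent.P219.CH.Full.Vari
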