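import Vale.Agent.P219.CH.Full.Variational.Barta
import Vale.Agent.P219.CH.Full.Variational.Power

/-!
P219, full inequality: the quotient at almost minimisers.
-/

namespace Vale.Agent.P219.CH.Full

open MeasureTheory Filter Topology Set
open scoped ContDiff RealInnerProductSpace

noncomputable section

namespace Vari

variable {n : ℕ} {G : Coeff n} {Γ : Geo G} {e h₀ : ℝ} {D : Varifold G h₀} {u : E n → ℝ}

/-- The bilinear form of the energy. -/
def qf (μ : Measure (E n × E n)) (G : Coeff n) (e h₀ : ℝ) (f g : E n → ℝ) : ℝ :=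
  ∫ p, (cc n * tgp G f g p + lam n e h₀ * (f p.1 * g p.1)) ∂μ

/-- `∫ f u^q`. -/
def mom (μ : Measure (E n × E n)) (u f : E n → ℝ) : ℝ := ∫ p, f p.1 * u p.1 ^ qe n ∂μ

/-- `∫ w² u² f`. -/
def wint (Γ : Geo G) (e : ℝ) (μ : Measure (E n × E n)) (z : E n) (a : ℝ) (u f : E n → ℝ) : ℝ :=
  ∫ p, wgt Γ e z a p.1 ^ 2 * u p.1 ^ 2 * f p.1 ∂μ

theorem integrable_qf (hG : IsMetric G) {f g : E n → ℝ} (hf : ContDiff ℝ 1 f)
    (hfs : HasCompactSupport f) (hg : ContDiff ℝ 1 g) :
    Integrable (fun p => cc n * tgp G f g p + lam n e h₀ * (f p.1 * g p.1)) D.μ := by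
  refine D.integrable_of_supp hG ?_ hfs fun p hp => ?_
  · exact (continuous_const.mul (continuous_tgp hG hf hg)).add (continuous_const.mul
      ((hf.continuous.comp continuous_fst).mul (hg.continuous.comp continuous_fst)))
  · simp [tgp_eq_zero_left hp, image_eq_zero_of_notMem_tsupport hp]

theorem energy_eq (f : E n → ℝ) : energy D.μ G e h₀ f = qf D.μ G e h₀ f f := by
  simp [energy, qf, tgsq, sq]

theorem energy_add_mul (hG : IsMetric G) {f g : E n → ℝ} (hf : ContDiff ℝ 1 f)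
    (hfs : HasCompactSupport f) (hg : ContDiff ℝ 1 g) (hgs : HasCompactSupport g) (s : ℝ) :
    energy D.μ G e h₀ (fun y => f y + s * g y) =
      energy D.μ G e h₀ f + 2 * s * qf D.μ G e h₀ f g + s ^ 2 * energy D.μ G e h₀ g := by
  simp only [energy_eq, qf]
  rw [← integral_const_mul, ← integral_const_mul, ← integral_add (integrable_qf hG hf hfs hf)
    ((integrable_qf hG hf hfs hg).const_mul _), ← integral_add
    ((integrable_qf hG hf hfs hf).fun_add ((integrable_qf hG hf hfs hg).const_mul _))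
    ((integrable_qf hG hg hgs hg).const_mul _)]
  refine integral_congr_ae (Eventually.of_forall fun p => ?_)
  simp only [tgp_eq, fderiv_comb hf hg, tg_comb hG]
  ring

theorem energy_const_mul (hG : IsMetric G) {f : E n → ℝ} (hf : ContDiff ℝ 1 f) (c : ℝ) :
    energy D.μ G e h₀ (fun y => c * f y) = c ^ 2 * energy D.μ G e h₀ f := by
  simp only [energy]
  rw [← integral_const_mul]
  refine integral_congr_ae (Eventually.of_forall fun p => ?_)
  have h : fderiv ℝ (fun y => c * f y) p.1 = c • fderiv ℝ f p.1 :=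
    ((hf.differentiable one_ne_zero p.1).hasFDerivAt.const_mul c).fderiv
  simp only [tgsq, tgp_eq, h, tg_smul_left, tg_smul_right hG]
  ring

theorem energy_nonneg (hn : 4 ≤ n) (hG : IsMetric G) (hl : 0 < lam n e h₀) (f : E n → ℝ) :
    0 ≤ energy D.μ G e h₀ f := by
  refine integral_nonneg_of_ae ?_
  filter_upwards [D.unit] with p hp
  exact add_nonneg (mul_nonneg (cc_pos hn).le (tgsq_nonneg hG f hp))
    (mul_nonneg hl.le (sq_nonneg _))

theorem Y_nonneg (hn : 4 ≤ n) (hG : IsMetric G) (hl : 0 < lam n e h₀) :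
    0 ≤ Yinf D.μ G e h₀ :=
  Real.sInf_nonneg (by rintro _ ⟨f, -, rfl⟩; exact energy_nonneg hn hG hl f)

theorem Y_le (hn : 4 ≤ n) (hG : IsMetric G) (hl : 0 < lam n e h₀) (hu : Adm D.μ u) :
    Yinf D.μ G e h₀ ≤ energy D.μ G e h₀ u :=
  csInf_le ⟨0, by rintro _ ⟨f, -, rfl⟩; exact energy_nonneg hn hG hl f⟩ ⟨u, hu, rfl⟩

/-- The quotient without normalisation. -/
theorem Y_mul_le (hn : 4 ≤ n) (hG : IsMetric G) (hl : 0 < lam n e h₀) {f : E n → ℝ}
    (hf : ContDiff ℝ 1 f) (hfs : HasCompactSupport f) (h0 : ∀ x, 0 ≤ f x) :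
    Yinf D.μ G e h₀ * (∫ p, f p.1 ^ qe n ∂D.μ) ^ (2 / qe n) ≤ energy D.μ G e h₀ f := by
  have hq := two_lt_qe hn
  set N := ∫ p, f p.1 ^ qe n ∂D.μ with hN
  have hN0 : 0 ≤ N := integral_nonneg fun p => Real.rpow_nonneg (h0 _) _
  rcases hN0.eq_or_lt with h | h
  · rw [← h, Real.zero_rpow (by positivity)]
    simpa using energy_nonneg hn hG hl f
  set c := N ^ (1 / qe n) with hc
  have hc0 : 0 < c := Real.rpow_pos_of_pos h _
  have hA : Adm D.μ (fun y => c⁻¹ * f y) := by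
    refine ⟨contDiff_const.mul hf, hfs.mul_left, fun x => mul_nonneg (inv_nonneg.2 hc0.le) (h0 x), ?_⟩
    simp only [Real.mul_rpow (inv_nonneg.2 hc0.le) (h0 _), integral_const_mul, ← hN]
    rw [hc, Real.inv_rpow (Real.rpow_nonneg hN0 _), ← Real.rpow_mul hN0,
      one_div_mul_cancel (by linarith : qe n ≠ 0), Real.rpow_one, inv_mul_cancel₀ h.ne']
  have h1 := Y_le hn hG hl hA
  rw [energy_const_mul hG hf, inv_pow, le_inv_mul_iff₀ (by positivity)] at h1
  refine le_of_eq_of_le ?_ h1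
  rw [hc, ← Real.rpow_natCast, ← Real.rpow_mul hN0]
  push_cast
  rw [show 1 / qe n * 2 = 2 / qe n by ring]
  ring

theorem contDiff_umul (hu : Adm D.μ u) {ζ : E n → ℝ} (hζ : ContDiff ℝ 1 ζ) :
    ContDiff ℝ 1 fun y => u y * ζ y := hu.c1.mul hζ

theorem supp_umul (hu : Adm D.μ u) {ζ : E n → ℝ} :
    HasCompactSupport fun y => u y * ζ y := hu.supp.mul_right

theorem integrable_mom (hn : 4 ≤ n) (hG : IsMetric G) (hu : Adm D.μ u) {f : E n → ℝ}
    (hf : Continuous f) : Integrable (fun p => f p.1 * u p.1 ^ qe n) D.μ := by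
  have hq := two_lt_qe hn
  refine D.integrable_of_supp hG ?_ hu.supp fun p hp => ?_
  · exact (hf.comp continuous_fst).mul
      ((hu.c1.continuous.comp continuous_fst).rpow_const fun _ => Or.inr (by linarith))
  · simp [image_eq_zero_of_notMem_tsupport hp, Real.zero_rpow (by linarith : qe n ≠ 0)]

theorem integrable_pow (hn : 4 ≤ n) (hG : IsMetric G) (hu : Adm D.μ u) :
    Integrable (fun p => u p.1 ^ qe n) D.μ := by
  simpa using integrable_mom hn hG hu (continuous_const : Continuous fun _ : E n => (1 : ℝ))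

theorem abs_mom_le (hn : 4 ≤ n) (hG : IsMetric G) (hu : Adm D.μ u) {f : E n → ℝ}
    (hf : Continuous f) {R : ℝ} (hR : ∀ x, |f x| ≤ R) : |mom D.μ u f| ≤ R := by
  calc |mom D.μ u f| ≤ ∫ p, |f p.1 * u p.1 ^ qe n| ∂D.μ := abs_integral_le_integral_abs
    _ ≤ ∫ p, R * u p.1 ^ qe n ∂D.μ := by
        refine integral_mono (integrable_mom hn hG hu hf).abs
          ((integrable_mom hn hG hu continuous_const (f := fun _ => R))) fun p => ?_
        change |f p.1 * u p.1 ^ qe n| ≤ R * u p.1 ^ qe n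
        rw [abs_mul, abs_of_nonneg (Real.rpow_nonneg (hu.nonneg _) _)]
        exact mul_le_mul_of_nonneg_right (hR _) (Real.rpow_nonneg (hu.nonneg _) _)
    _ = R := by rw [integral_const_mul, hu.norm, mul_one]

theorem energy_umul_le (hn : 4 ≤ n) (hG : IsMetric G) (hl : 0 < lam n e h₀) (hu : Adm D.μ u)
    {ζ : E n → ℝ} (hζ : ContDiff ℝ 1 ζ) {R B : ℝ} (hR : ∀ x, |ζ x| ≤ R)
    (hB : ∫ p, u p.1 ^ 2 * tgsq G ζ p ∂D.μ ≤ B) :
    energy D.μ G e h₀ (fun y => u y * ζ y) ≤
      2 * R ^ 2 * energy D.μ G e h₀ u + 2 * cc n * B := by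
  have hI : Integrable (fun p => u p.1 ^ 2 * tgsq G ζ p) D.μ :=
    D.integrable_of_supp hG (((hu.c1.continuous.comp continuous_fst).pow 2).mul
      (continuous_tgsq hG hζ)) hu.supp fun p hp => by simp [image_eq_zero_of_notMem_tsupport hp]
  have hE : Integrable (fun p => cc n * tgsq G u p + lam n e h₀ * u p.1 ^ 2) D.μ := by
    simpa [tgsq, sq] using integrable_qf (e := e) (h₀ := h₀) hG hu.c1 hu.supp hu.c1
  have hL : Integrable (fun p => cc n * tgsq G (fun y => u y * ζ y) p +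
      lam n e h₀ * (u p.1 * ζ p.1) ^ 2) D.μ := by
    simpa [tgsq, sq] using integrable_qf (e := e) (h₀ := h₀) hG (contDiff_umul hu hζ)
      (supp_umul hu) (contDiff_umul hu hζ)
  calc energy D.μ G e h₀ (fun y => u y * ζ y)
      ≤ ∫ p, (2 * R ^ 2 * (cc n * tgsq G u p + lam n e h₀ * u p.1 ^ 2) +
          2 * cc n * (u p.1 ^ 2 * tgsq G ζ p)) ∂D.μ := by
        refine integral_mono_ae hL ((hE.const_mul _).fun_add (hI.const_mul _)) ?_
        filter_upwards [D.unit] with p hp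
        have h := tgsq_mul_le hG hp (hu.c1.differentiable one_ne_zero p.1)
          (hζ.differentiable one_ne_zero p.1)
        have hz : ζ p.1 ^ 2 ≤ R ^ 2 := sq_le_sq' (abs_le.1 (hR _)).1 (abs_le.1 (hR _)).2
        have h1 : ζ p.1 ^ 2 * tgsq G u p ≤ R ^ 2 * tgsq G u p :=
          mul_le_mul_of_nonneg_right hz (tgsq_nonneg hG u hp)
        have h2 : (u p.1 * ζ p.1) ^ 2 ≤ 2 * R ^ 2 * u p.1 ^ 2 := by
          rw [mul_pow]
          nlinarith [mul_le_mul_of_nonneg_left hz (sq_nonneg (u p.1)),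
            mul_nonneg (sq_nonneg R) (sq_nonneg (u p.1))]
        nlinarith [mul_le_mul_of_nonneg_left (h.trans (by linarith : _ ≤
          2 * (R ^ 2 * tgsq G u p) + 2 * (u p.1 ^ 2 * tgsq G ζ p))) (cc_pos hn).le,
          mul_le_mul_of_nonneg_left h2 hl.le]
    _ = _ + 2 * cc n * ∫ p, u p.1 ^ 2 * tgsq G ζ p ∂D.μ := by
        rw [integral_add (hE.const_mul _) (hI.const_mul _), integral_const_mul,
          integral_const_mul]
    _ ≤ _ := by
        simp only [energy]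
        have := mul_le_mul_of_nonneg_left hB (mul_nonneg zero_le_two (cc_pos hn).le)
        linarith

/-- The quotient at `u (1 + s ζ)`. -/
theorem insert_test (hn : 4 ≤ n) (hG : IsMetric G) (hl : 0 < lam n e h₀) (hu : Adm D.μ u)
    {ζ : E n → ℝ} (hζ : ContDiff ℝ 1 ζ) (hζ1 : ∀ x, |ζ x| ≤ 1) {s : ℝ} (hs : |s| ≤ 1) :
    Yinf D.μ G e h₀ * (mom D.μ u fun x => (1 + s * ζ x) ^ qe n) ^ (2 / qe n) ≤
      energy D.μ G e h₀ u + 2 * s * qf D.μ G e h₀ u (fun y => u y * ζ y) +
        s ^ 2 * energy D.μ G e h₀ (fun y => u y * ζ y) := by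
  have hpos : ∀ x, 0 ≤ 1 + s * ζ x := fun x => by
    have : |s * ζ x| ≤ 1 := by
      rw [abs_mul]; exact mul_le_one₀ hs (abs_nonneg _) (hζ1 x)
    linarith [(abs_le.1 this).1]
  rw [← energy_add_mul hG hu.c1 hu.supp (contDiff_umul hu hζ) (supp_umul hu)]
  have h := Y_mul_le (D := D) (e := e) hn hG hl (f := fun y => u y + s * (u y * ζ y))
    (hu.c1.add (contDiff_const.mul (contDiff_umul hu hζ)))
    (hu.supp.add (supp_umul hu).mul_left) fun x => by
      nlinarith [mul_nonneg (hu.nonneg x) (hpos x)]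
  refine le_of_eq_of_le ?_ h
  congr 2
  refine integral_congr_ae (Eventually.of_forall fun p => ?_)
  change (1 + s * ζ p.1) ^ qe n * u p.1 ^ qe n = (u p.1 + s * (u p.1 * ζ p.1)) ^ qe n
  rw [← Real.mul_rpow (hpos _) (hu.nonneg _)]
  ring_nf

theorem first_aux (hn : 4 ≤ n) (hG : IsMetric G) (hl : 0 < lam n e h₀) (hu : Adm D.μ u)
    {ζ : E n → ℝ} (hζ : ContDiff ℝ 1 ζ) (hζ1 : ∀ x, |ζ x| ≤ 1) {s : ℝ}
    (hs : |s| ≤ 1 / (2 * qe n)) :
    Yinf D.μ G e h₀ * (1 + 2 * s * mom D.μ u ζ - (qe n * s) ^ 2) ≤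
      energy D.μ G e h₀ u + 2 * s * qf D.μ G e h₀ u (fun y => u y * ζ y) +
        s ^ 2 * energy D.μ G e h₀ (fun y => u y * ζ y) := by
  have hq := two_lt_qe hn
  have hs1 : |s| ≤ 1 := hs.trans (by rw [div_le_one (by linarith)]; linarith)
  refine le_trans (mul_le_mul_of_nonneg_left ?_ (Y_nonneg hn hG hl)) (insert_test hn hG hl hu hζ hζ1 hs1)
  have hM : |mom D.μ u ζ| ≤ 1 := abs_mom_le hn hG hu hζ.continuous hζ1
  set x := qe n * (s * mom D.μ u ζ) with hx
  have hxs : |x| ≤ qe n * |s| := by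
    rw [hx, abs_mul, abs_mul, abs_of_pos (by linarith : 0 < qe n)]
    exact mul_le_mul_of_nonneg_left (mul_le_of_le_one_right (abs_nonneg _) hM) (by linarith)
  have hx2 : |x| ≤ 1 / 2 := hxs.trans (by
    rw [le_div_iff₀ (by linarith : (0 : ℝ) < 2 * qe n)] at hs; linarith)
  have h1 : 1 + x ≤ mom D.μ u fun y => (1 + s * ζ y) ^ qe n := by
    have e1 : 1 + x = ∫ p, (u p.1 ^ qe n + qe n * s * (ζ p.1 * u p.1 ^ qe n)) ∂D.μ := by
      rw [integral_add (integrable_pow hn hG hu)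
        ((integrable_mom hn hG hu hζ.continuous).const_mul _), hu.norm, integral_const_mul, hx, mom]
      ring
    rw [e1, mom]
    refine integral_mono ((integrable_pow hn hG hu).fun_add
      ((integrable_mom hn hG hu hζ.continuous).const_mul _))
      (integrable_mom hn hG hu ((continuous_const.add (continuous_const.mul hζ.continuous)).rpow_const
        fun _ => Or.inr (by linarith))) fun p => ?_
    have hsz : -1 ≤ s * ζ p.1 := by
      have : |s * ζ p.1| ≤ 1 := by rw [abs_mul]; exact mul_le_one₀ hs1 (abs_nonneg _) (hζ1 _)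
      exact (abs_le.1 this).1
    have := mul_le_mul_of_nonneg_right
      (one_add_mul_self_le_rpow_one_add hsz (by linarith : (1 : ℝ) ≤ qe n))
      (Real.rpow_nonneg (hu.nonneg p.1) (qe n))
    linarith
  have hp : 2 / qe n ≤ 1 := by rw [div_le_one (by linarith)]; linarith
  refine le_trans ?_ ((one_add_rpow_ge_of_le_one (by positivity) hp hx2).trans
    (Real.rpow_le_rpow (by linarith [(abs_le.1 hx2).1]) h1 (by positivity)))
  have e2 : 2 / qe n * x = 2 * s * mom D.μ u ζ := by rw [hx]; field_simp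
  have : x ^ 2 ≤ (qe n * s) ^ 2 := by
    refine sq_le_sq.2 (hxs.trans (le_of_eq ?_))
    rw [abs_mul, abs_of_pos (by linarith : 0 < qe n)]
  linarith

/-- The Euler equation of an almost minimiser. -/
theorem first (hn : 4 ≤ n) (hG : IsMetric G) (hl : 0 < lam n e h₀) (K : ℝ) {δ : ℝ} (hδ : 0 < δ) :
    ∃ η : ℝ, 0 < η ∧ ∀ u, Adm D.μ u → energy D.μ G e h₀ u ≤ Yinf D.μ G e h₀ + η →
      ∀ ζ : E n → ℝ, ContDiff ℝ 1 ζ → (∀ x, |ζ x| ≤ 1) →
        energy D.μ G e h₀ (fun y => u y * ζ y) ≤ K →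
        |qf D.μ G e h₀ u (fun y => u y * ζ y) - Yinf D.μ G e h₀ * mom D.μ u ζ| ≤ δ := by
  have hq := two_lt_qe hn
  have hY := Y_nonneg (D := D) (e := e) hn hG hl
  obtain ⟨ε, hε, hε0, hεK⟩ := exists_param
    (K := |K| + Yinf D.μ G e h₀ * qe n ^ 2) (ε₀ := 1 / (2 * qe n)) (τ := δ) (by positivity)
    (by positivity) hδ
  refine ⟨ε * δ, by positivity, fun u hu hE ζ hζ hζ1 hK => ?_⟩
  have h1 := first_aux hn hG hl hu hζ hζ1 (s := ε) (by rw [abs_of_pos hε]; exact hε0)
  have h2 := first_aux hn hG hl hu hζ hζ1 (s := -ε) (by rw [abs_neg, abs_of_pos hε]; exact hε0)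
  set Q := qf D.μ G e h₀ u (fun y => u y * ζ y)
  have h3 : ε ^ 2 * energy D.μ G e h₀ (fun y => u y * ζ y) + Yinf D.μ G e h₀ * (qe n * ε) ^ 2 ≤
      ε * δ := by
    have := mul_le_mul_of_nonneg_left (hK.trans (le_abs_self K)) (sq_nonneg ε)
    have := mul_le_mul_of_nonneg_left hεK hε.le
    linarith
  have h2ε : (0 : ℝ) < 2 * ε := by linarith
  rw [abs_le]
  constructor <;> refine le_of_mul_le_mul_left ?_ h2ε <;> linarith

/-- The second variation of an almost minimiser. -/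
theorem second (hn : 4 ≤ n) (hG : IsMetric G) (hl : 0 < lam n e h₀) {δ : ℝ} (hδ : 0 < δ) :
    ∃ η : ℝ, 0 < η ∧ ∀ u, Adm D.μ u → energy D.μ G e h₀ u ≤ Yinf D.μ G e h₀ + η →
      ∀ ζ : E n → ℝ, ContDiff ℝ 1 ζ → (∀ x, |ζ x| ≤ 1) → mom D.μ u ζ = 0 →
        (qe n - 1) * Yinf D.μ G e h₀ * (mom D.μ u fun x => ζ x ^ 2) - δ ≤
          energy D.μ G e h₀ (fun y => u y * ζ y) := by
  have hq := two_lt_qe hn
  have hY := Y_nonneg (D := D) (e := e) hn hG hl
  obtain ⟨C, d, hC, hd, hd2, hpow⟩ := one_add_rpow_ge (qe n) hq.le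
  set A := qe n ^ 2 + C with hA
  have hA0 : 0 < A := by positivity
  obtain ⟨ε, hε, hε0, hεK⟩ := exists_param
    (K := Yinf D.μ G e h₀ * (2 * C + A ^ 2)) (ε₀ := min d (1 / (2 * A))) (τ := δ / 2)
    (by positivity) (by positivity) (by positivity : 0 < δ / 2)
  have hεd : ε ≤ d := hε0.trans (min_le_left _ _)
  have hε1 : ε ≤ 1 := by linarith
  refine ⟨ε ^ 2 * (δ / 2), by positivity, fun u hu hE ζ hζ hζ1 hm => ?_⟩
  set M := mom D.μ u fun x => ζ x ^ 2
  have hM0 : 0 ≤ M := integral_nonneg fun p =>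
    mul_nonneg (sq_nonneg _) (Real.rpow_nonneg (hu.nonneg _) _)
  have hM1 : M ≤ 1 := (abs_le.1 (abs_mom_le hn hG hu (hζ.continuous.pow 2)
    fun x => by rw [abs_of_nonneg (sq_nonneg _)]; exact (sq_le_one_iff_abs_le_one _).2 (hζ1 x))).2
  set X := qe n * (qe n - 1) / 2 * ε ^ 2 * M - C * ε ^ 3 with hX
  have hXb : |X| ≤ A * ε ^ 2 := by
    have h1 : 0 ≤ qe n * (qe n - 1) / 2 * ε ^ 2 * M := by
      have : 0 ≤ qe n * (qe n - 1) := mul_nonneg (by linarith) (by linarith)
      positivity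
    have h2 : qe n * (qe n - 1) / 2 * ε ^ 2 * M ≤ qe n ^ 2 * ε ^ 2 := by
      refine (mul_le_mul_of_nonneg_left hM1 ?_).trans ?_
      · exact mul_nonneg (div_nonneg (mul_nonneg (by linarith) (by linarith)) zero_le_two) (sq_nonneg _)
      · rw [mul_one]; exact mul_le_mul_of_nonneg_right (by nlinarith) (sq_nonneg _)
    have h3 : C * ε ^ 3 ≤ C * ε ^ 2 :=
      mul_le_mul_of_nonneg_left (pow_le_pow_of_le_one hε.le hε1 (by norm_num)) hC
    have h4 : 0 ≤ C * ε ^ 3 := by positivity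
    have h5 : 0 ≤ qe n ^ 2 * ε ^ 2 := by positivity
    rw [abs_le, hA]
    constructor <;> linarith
  have hX2 : |X| ≤ 1 / 2 := hXb.trans (by
    have h := hε0.trans (min_le_right _ _)
    rw [le_div_iff₀ (by positivity)] at h
    nlinarith [mul_nonneg (mul_nonneg hA0.le hε.le) (sub_nonneg.2 hε1)])
  have hp : 2 / qe n ≤ 1 := by rw [div_le_one (by linarith)]; linarith
  have key : ∀ s : ℝ, |s| = ε →
      Yinf D.μ G e h₀ * (1 + (qe n - 1) * ε ^ 2 * M - (2 * C + A ^ 2) * ε ^ 3) ≤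
        energy D.μ G e h₀ u + 2 * s * qf D.μ G e h₀ u (fun y => u y * ζ y) +
          s ^ 2 * energy D.μ G e h₀ (fun y => u y * ζ y) := by
    intro s hs
    refine le_trans (mul_le_mul_of_nonneg_left ?_ hY)
      (insert_test hn hG hl hu hζ hζ1 (by rw [hs]; exact hε1))
    have i0 := integrable_pow hn hG hu
    have i1 := integrable_mom hn hG hu hζ.continuous
    have i2 := integrable_mom hn hG hu (hζ.continuous.pow 2) (f := fun x => ζ x ^ 2)
    have h1 : 1 + X ≤ mom D.μ u fun y => (1 + s * ζ y) ^ qe n := by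
      have e1 : 1 + X = ∫ p, ((1 - C * ε ^ 3) * u p.1 ^ qe n + qe n * s * (ζ p.1 * u p.1 ^ qe n) +
          qe n * (qe n - 1) / 2 * ε ^ 2 * (ζ p.1 ^ 2 * u p.1 ^ qe n)) ∂D.μ := by
        rw [integral_add ((i0.const_mul _).fun_add (i1.const_mul _)) (i2.const_mul _),
          integral_add (i0.const_mul _) (i1.const_mul _), integral_const_mul, integral_const_mul,
          integral_const_mul, hu.norm]
        change 1 + X = _ + qe n * s * mom D.μ u ζ + _ * M
        rw [hm, hX]; ring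
      rw [e1, mom]
      refine integral_mono (((i0.const_mul _).fun_add (i1.const_mul _)).fun_add (i2.const_mul _))
        (integrable_mom hn hG hu ((continuous_const.add (continuous_const.mul hζ.continuous)).rpow_const
          fun _ => Or.inr (by linarith))) fun p => ?_
      have hsz : |s * ζ p.1| ≤ ε := by
        rw [abs_mul, hs]; exact mul_le_of_le_one_right hε.le (hζ1 _)
      have := mul_le_mul_of_nonneg_right (hpow _ (hsz.trans hεd))
        (Real.rpow_nonneg (hu.nonneg p.1) (qe n))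
      have h3 : C * |s * ζ p.1| ^ 3 * u p.1 ^ qe n ≤ C * ε ^ 3 * u p.1 ^ qe n :=
        mul_le_mul_of_nonneg_right (mul_le_mul_of_nonneg_left
          (pow_le_pow_left₀ (abs_nonneg _) hsz 3) hC) (Real.rpow_nonneg (hu.nonneg _) _)
      rw [mul_pow s, ← sq_abs s, hs] at this
      linarith
    refine le_trans ?_ ((one_add_rpow_ge_of_le_one (by positivity) hp hX2).trans
      (Real.rpow_le_rpow (by linarith [(abs_le.1 hX2).1]) h1 (by positivity)))
    have e2 : 2 / qe n * X = (qe n - 1) * ε ^ 2 * M - 2 / qe n * (C * ε ^ 3) := by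
      rw [hX]; field_simp
    have h4 : 2 / qe n * (C * ε ^ 3) ≤ 2 * C * ε ^ 3 := by
      have : 0 ≤ C * ε ^ 3 := by positivity
      nlinarith
    have h5 : X ^ 2 ≤ A ^ 2 * ε ^ 3 := by
      calc X ^ 2 ≤ (A * ε ^ 2) ^ 2 := by rw [← sq_abs]; exact pow_le_pow_left₀ (abs_nonneg _) hXb 2
        _ = A ^ 2 * ε ^ 4 := by ring
        _ ≤ _ := mul_le_mul_of_nonneg_left (pow_le_pow_of_le_one hε.le hε1 (by norm_num)) (sq_nonneg _)
    linarith
  have h1 := key ε (abs_of_pos hε)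
  have h2 := key (-ε) (by rw [abs_neg, abs_of_pos hε])
  have h3 := mul_le_mul_of_nonneg_left hεK (sq_nonneg ε)
  refine le_of_mul_le_mul_left ?_ (pow_pos hε 2)
  linarith

end Vari

end

end Vale.Agent.P219.CH.Full
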