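import Vale.Agent.P219.CH.Full.Tools
import Vale.Agent.P219.CH.Geo.Basic
import Vale.Agent.P219.CH.Core.Field.Point

/-!
P219, full inequality: the tangential product as a form in the differentials.
-/

namespace Vale.Agent.P219.CH.Full

open MeasureTheory Filter Topology Set
open scoped ContDiff RealInnerProductSpace

noncomputable section

namespace Vari

variable {n : ℕ} {G : Coeff n}

/-- The vector dual to a linear form. -/
def raise (G : Coeff n) (y : E n) (L : E n →L[ℝ] ℝ) : E n :=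
  Ring.inverse (sharp G y) ((InnerProductSpace.toDual ℝ (E n)).symm L)

/-- The tangential product of two linear forms. -/
def tg (G : Coeff n) (p : E n × E n) (L M : E n →L[ℝ] ℝ) : ℝ :=
  L (raise G p.1 M) - L p.2 * M p.2

theorem tgp_eq (G : Coeff n) (u v : E n → ℝ) (p : E n × E n) :
    tgp G u v p = tg G p (fderiv ℝ u p.1) (fderiv ℝ v p.1) := rfl

theorem tg_add_left (p : E n × E n) (L L' M : E n →L[ℝ] ℝ) :
    tg G p (L + L') M = tg G p L M + tg G p L' M := by
  simp only [tg, add_apply]; ring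

theorem tg_smul_left (p : E n × E n) (c : ℝ) (L M : E n →L[ℝ] ℝ) :
    tg G p (c • L) M = c * tg G p L M := by
  simp only [tg, smul_apply, smul_eq_mul]; ring

theorem tg_comm (hG : IsMetric G) (p : E n × E n) (L M : E n →L[ℝ] ℝ) :
    tg G p L M = tg G p M L := by
  have h : L (raise G p.1 M) = M (raise G p.1 L) := by
    rw [raise, raise, ← hG.G_inverse_sharp p.1 L, hG.symm, hG.G_inverse_sharp p.1 M]
  rw [tg, tg, h]; ring

theorem tg_add_right (hG : IsMetric G) (p : E n × E n) (L M M' : E n →L[ℝ] ℝ) :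
    tg G p L (M + M') = tg G p L M + tg G p L M' := by
  rw [tg_comm hG, tg_add_left, tg_comm hG p M, tg_comm hG p M']

theorem tg_smul_right (hG : IsMetric G) (p : E n × E n) (c : ℝ) (L M : E n →L[ℝ] ℝ) :
    tg G p L (c • M) = c * tg G p L M := by
  rw [tg_comm hG, tg_smul_left, tg_comm hG p M]

theorem tg_nonneg (hG : IsMetric G) {p : E n × E n} (hp : G p.1 p.2 p.2 = 1)
    (L : E n →L[ℝ] ℝ) : 0 ≤ tg G p L L := by
  set v := raise G p.1 L with hv
  have e1 : L v = G p.1 v v := (hG.G_inverse_sharp p.1 L v).symm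
  have e2 : L p.2 = G p.1 v p.2 := (hG.G_inverse_sharp p.1 L p.2).symm
  have h := hG.cauchy p.1 v p.2
  have h1 : gnorm G p.1 p.2 = 1 := by rw [gnorm, hp, Real.sqrt_one]
  rw [h1, mul_one] at h
  have h2 := pow_le_pow_left₀ (abs_nonneg _) h 2
  rw [sq_abs, hG.gnorm_sq] at h2
  rw [tg, ← hv, e1, e2]
  linarith

/-- Expansion of the square of a sum. -/
theorem tg_comb (hG : IsMetric G) (p : E n × E n) (a b : ℝ) (L M : E n →L[ℝ] ℝ) :
    tg G p (a • L + b • M) (a • L + b • M) =
      a ^ 2 * tg G p L L + 2 * a * b * tg G p L M + b ^ 2 * tg G p M M := by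
  simp only [tg_add_left, tg_smul_left, tg_add_right hG, tg_smul_right hG, tg_comm hG p M L]
  ring

theorem tg_comb_le (hG : IsMetric G) {p : E n × E n} (hp : G p.1 p.2 p.2 = 1) (a b : ℝ)
    (L M : E n →L[ℝ] ℝ) :
    tg G p (a • L + b • M) (a • L + b • M) ≤
      2 * a ^ 2 * tg G p L L + 2 * b ^ 2 * tg G p M M := by
  have h := tg_nonneg hG hp (a • L + (-b) • M)
  rw [tg_comb hG] at h
  rw [tg_comb hG]
  linarith

/-! ### Derivatives -/

theorem fderiv_mul_fun {u v : E n → ℝ} (hu : ContDiff ℝ 1 u) (hv : ContDiff ℝ 1 v) (x : E n) :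
    fderiv ℝ (fun y => u y * v y) x = v x • fderiv ℝ u x + u x • fderiv ℝ v x := by
  have h := ((hu.differentiable one_ne_zero x).hasFDerivAt.mul
    (hv.differentiable one_ne_zero x).hasFDerivAt).fderiv
  rw [add_comm] at h
  exact h

theorem fderiv_comb {u v : E n → ℝ} (hu : ContDiff ℝ 1 u) (hv : ContDiff ℝ 1 v) (s : ℝ) (x : E n) :
    fderiv ℝ (fun y => u y + s * v y) x = (1 : ℝ) • fderiv ℝ u x + s • fderiv ℝ v x := by
  rw [one_smul]
  exact ((hu.differentiable one_ne_zero x).hasFDerivAt.add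
    ((hv.differentiable one_ne_zero x).hasFDerivAt.const_mul s)).fderiv

end Vari

end

end Vale.Agent.P219.CH.Full
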